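import Vale.Agent.P365.Open.Energy
import Vale.Agent.P365.F34.Dini
import Vale.Agent.P365.Torus.Char

/-!
# P365, block S: the integrated energy decay
`∫_a^b ∑_z EE_ε[m_z μ_z²] dε ≤ (2γ²)⁻¹ ∑ A_xy² (f_x - f_y)²`.
-/

set_option linter.all false

namespace P365L.FIN

open MeasureTheory ProbabilityTheory Complex P365L P365L.Poi P365F P365O P365F34 Set Filter Topology
open scoped ENNReal NNReal Real

variable {ι : Type*} [Fintype ι] [DecidableEq ι] {A : Matrix ι ι ℝ}

/-! ### continuity in the potential -/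

/-- continuity at every potential in the open lower half plane -/
def Cts (F : (ι → ℂ) → ℝ) : Prop := ∀ W : ι → ℂ, (∀ x, (W x).im < 0) → ContinuousAt F W

theorem continuous_Kmat : Continuous fun W : ι → ℂ => Kmat A W := by
  unfold Kmat
  refine continuous_const.add ?_
  exact Continuous.matrix_diagonal continuous_id

theorem continuousAt_Gr (hA : A.IsSymm) {W : ι → ℂ} (hW : ∀ x, (W x).im < 0) (x y : ι) :
    ContinuousAt (fun W : ι → ℂ => Gr A W x y) W := by
  have h1 : (fun W : ι → ℂ => Gr A W x y) =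
      fun W : ι → ℂ => ((Kmat A W).det)⁻¹ * (Kmat A W).adjugate x y := by
    funext W
    rw [Gr, Matrix.inv_def, Ring.inverse_eq_inv', Matrix.smul_apply, smul_eq_mul]
  rw [h1]
  have hd : Continuous fun W : ι → ℂ => (Kmat A W).det := continuous_Kmat.matrix_det
  have ha : Continuous fun W : ι → ℂ => (Kmat A W).adjugate x y :=
    (continuous_Kmat.matrix_adjugate).matrix_elem x y
  exact (hd.continuousAt.inv₀ (det_ne_zero hA hW)).mul ha.continuousAt

theorem Cts_KK (hA : A.IsSymm) (x y : ι) : Cts (fun W => KK A W x y) := fun W hW =>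
  ((continuousAt_Gr hA hW x y).norm).pow 2

theorem Cts_mm (hA : A.IsSymm) (x : ι) : Cts (fun W => mm A W x) := fun W hW =>
  Complex.continuous_im.continuousAt.comp (continuousAt_Gr hA hW x x)

theorem Cts_ab (x : ι) : Cts (fun W : ι → ℂ => -(W x).im) := fun W _ =>
  ((Complex.continuous_im.comp (continuous_apply x)).neg).continuousAt

theorem Cts_const (r : ℝ) : Cts (fun _ : ι → ℂ => r) := fun _ _ => continuousAt_const

theorem Cts.mul {F G : (ι → ℂ) → ℝ} (hF : Cts F) (hG : Cts G) : Cts (fun W => F W * G W) :=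
  fun W hW => (hF W hW).mul (hG W hW)

theorem Cts.add {F G : (ι → ℂ) → ℝ} (hF : Cts F) (hG : Cts G) : Cts (fun W => F W + G W) :=
  fun W hW => (hF W hW).add (hG W hW)

theorem Cts.sub {F G : (ι → ℂ) → ℝ} (hF : Cts F) (hG : Cts G) : Cts (fun W => F W - G W) :=
  fun W hW => (hF W hW).sub (hG W hW)

theorem Cts.neg {F : (ι → ℂ) → ℝ} (hF : Cts F) : Cts (fun W => -F W) :=
  fun W hW => (hF W hW).neg

theorem Cts.pow {F : (ι → ℂ) → ℝ} (hF : Cts F) (k : ℕ) : Cts (fun W => F W ^ k) :=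
  fun W hW => (hF W hW).pow k

theorem Cts_sum {κ : Type*} (S : Finset κ) {F : κ → (ι → ℂ) → ℝ} (hF : ∀ i ∈ S, Cts (F i)) :
    Cts (fun W => ∑ i ∈ S, F i W) := fun W hW =>
  tendsto_finsetSum S fun i hi => hF i hi W hW

theorem Cts_En (hA : A.IsSymm) (f : ι → ℝ) : Cts (fun W => En A W f) := by
  unfold En
  refine Cts_sum _ fun x _ => Cts_sum _ fun y _ => ?_
  exact (((Cts_ab x).mul (Cts_ab y)).mul (Cts_KK hA x y)).mul (Cts_const _)

/-- `T_zz = m_z μ_z = ∑ e_y K_zy (f_y - f_z)` -/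
noncomputable def Tz (A : Matrix ι ι ℝ) (W : ι → ℂ) (f : ι → ℝ) (z : ι) : ℝ :=
  ∑ y, (-(W y).im) * KK A W z y * (f y - f z)

theorem Tz_eq (hA : A.IsSymm) {W : ι → ℂ} (hW : ∀ x, (W x).im < 0) (f : ι → ℝ) (z : ι) :
    Tz A W f z = mm A W z * muf A W f z := (mm_mul_muf hA hW z).symm

theorem Cts_Tz (hA : A.IsSymm) (f : ι → ℝ) (z : ι) : Cts (fun W => Tz A W f z) := by
  unfold Tz
  exact Cts_sum _ fun y _ => ((Cts_ab y).mul (Cts_KK hA z y)).mul (Cts_const _)

/-- `m_z μ_z² = T_zz²/m_z` -/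
noncomputable def M2z (A : Matrix ι ι ℝ) (W : ι → ℂ) (f : ι → ℝ) (z : ι) : ℝ :=
  mm A W z * muf A W f z ^ 2

theorem M2z_nonneg (hA : A.IsSymm) {W : ι → ℂ} (hW : ∀ x, (W x).im < 0) (f : ι → ℝ) (z : ι) :
    0 ≤ M2z A W f z := mul_nonneg (mm_pos hA hW z).le (sq_nonneg _)

theorem Cts_muf (hA : A.IsSymm) (f : ι → ℝ) (z : ι) : Cts (fun W => muf A W f z) := by
  unfold muf
  refine Cts.sub (Cts_sum _ fun y _ => ?_) (Cts_const _)
  refine Cts.mul ?_ (Cts_const _)
  intro W hW
  unfold PP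
  exact ((Cts_ab y).mul (Cts_KK hA z y) W hW).div (Cts_mm hA z W hW) (mm_pos hA hW z).ne'

theorem Cts_M2z (hA : A.IsSymm) (f : ι → ℝ) (z : ι) : Cts (fun W => M2z A W f z) :=
  (Cts_mm hA z).mul ((Cts_muf hA f z).pow 2)

theorem measurable_muf (f : ι → ℝ) (z : ι) : Measurable fun W : ι → ℂ => muf A W f z := by
  unfold muf PP
  refine (Finset.measurable_sum _ fun y _ => ?_).sub_const _
  exact (((measurable_ab y).mul (measurable_KK z y)).div (measurable_mm z)).mul_const _

/-- `|μ_z| ≤ ∑ |f_y - f_z|` -/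
theorem abs_muf_le (hA : A.IsSymm) {W : ι → ℂ} (hW : ∀ x, (W x).im < 0) (f : ι → ℝ) (z : ι) :
    |muf A W f z| ≤ ∑ y, |f y - f z| := by
  have h0 : muf A W f z = ∑ y, PP A W z y * (f y - f z) := by
    unfold muf
    simp only [mul_sub, Finset.sum_sub_distrib]
    rw [← Finset.sum_mul, PP_sum hA hW, one_mul]
  rw [h0]
  refine (Finset.abs_sum_le_sum_abs _ _).trans (Finset.sum_le_sum fun y _ => ?_)
  rw [abs_mul, abs_of_nonneg (PP_nonneg hA hW z y)]
  have h1 : PP A W z y ≤ 1 := by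
    rw [← PP_sum hA hW z]
    exact Finset.single_le_sum (f := fun y => PP A W z y) (fun y _ => PP_nonneg hA hW z y)
      (Finset.mem_univ y)
  exact mul_le_of_le_one_left (abs_nonneg _) h1

theorem Adm_muf (hA : A.IsSymm) (f : ι → ℝ) (z : ι) : Adm (fun W => muf A W f z) where
  meas := measurable_muf f z
  bdd := fun η hη => ⟨∑ y, |f y - f z|, fun W hW => abs_muf_le hA (neg_of_le hη hW) f z⟩

theorem Adm_M2z (hA : A.IsSymm) (f : ι → ℝ) (z : ι) : Adm (fun W => M2z A W f z) :=
  adm_mul (Adm_mm hA z) (adm_pow (Adm_muf hA f z) 2)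

/-! ### continuity in the profile -/

theorem continuous_Wp (γ : ℝ) (U c : ι → ℝ) : Continuous fun e : ι → ℝ => Wp γ e U c := by
  unfold Wp Wc
  refine continuous_pi fun x => ?_
  have h1 : Continuous fun e : ι → ℝ => (((γ - e x : ℝ)) : ℂ) :=
    Complex.continuous_ofReal.comp (continuous_const.sub (continuous_apply x))
  have h2 : Continuous fun e : ι → ℝ => ((e x : ℝ) : ℂ) :=
    Complex.continuous_ofReal.comp (continuous_apply x)
  exact (continuous_const.add (h1.mul continuous_const)).sub (h2.mul continuous_const)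

theorem continuousOn_EEp {F : (ι → ℂ) → ℝ} (hF : Adm F) (hc : Cts F) (γ : ℝ) (U : ι → ℝ) :
    ContinuousOn (fun e => EEp γ e U F) (Prof γ) := by
  intro e he
  have he0 : ∀ x, 0 < e x := fun x => (he x).1
  obtain ⟨η, hη, hηe⟩ := exists_lower' he0
  obtain ⟨C, hC⟩ := hF.bdd (η / 2) (by positivity)
  have hev : ∀ᶠ e' in 𝓝[Prof γ] e, ∀ x, η / 2 ≤ e' x := by
    rw [eventually_all]
    intro x
    have h1 : Tendsto (fun e' : ι → ℝ => e' x) (𝓝[Prof γ] e) (𝓝 (e x)) :=
      (continuous_apply x).continuousWithinAt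
    have h2 : η / 2 < e x := by linarith [hηe x]
    exact (h1.eventually (lt_mem_nhds h2)).mono fun e' h => le_of_lt h
  unfold EEp
  refine continuousWithinAt_of_dominated (bound := fun _ => C) ?_ ?_ (integrable_const _) ?_
  · exact Eventually.of_forall fun e' => (hF.meas.comp (measurable_Wp γ e' U)).aestronglyMeasurable
  · filter_upwards [hev] with e' h
    refine Eventually.of_forall fun c => ?_
    exact hC _ fun x => by rw [Wp_im]; linarith [h x]
  · refine Eventually.of_forall fun c => ?_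
    have h1 : ContinuousAt F (Wp γ e U c) := hc _ fun x => by rw [Wp_im]; linarith [he0 x]
    exact (ContinuousAt.comp (f := fun e : ι → ℝ => Wp γ e U c) h1
      (continuous_Wp γ U c).continuousAt).continuousWithinAt

/-! ### the budget -/

/-- one-site energy loss -/
theorem EEp_En_drop (hA : A.IsSymm) {γ : ℝ} {e : ι → ℝ} (U : ι → ℝ) (he : ∀ x, 0 < e x) (z : ι)
    (hz : e z ≤ γ) {h : ℝ} (hh : 0 < h) (hhz : h < e z) (f : ι → ℝ) :
    EEp γ (Function.update e z (e z - h)) U (fun W => En A W f) ≤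
      EEp γ e U (fun W => En A W f) - 2 * h * EEp γ e U (fun W => M2z A W f z) := by
  rw [EEp_lower_one (Adm_En hA f) U he z hz hh hhz]
  have h1 : EEp γ e U (fun W => ∫ t, En A (kickW z h W t) f ∂nu) ≤
      EEp γ e U (fun W => En A W f - 2 * h * M2z A W f z) := by
    refine integral_mono (integrable_kick (Adm_En hA f) U he z hz hh hhz) ?_ fun c => ?_
    · exact ((Adm_En hA f).integrable he γ U).sub
        (((Adm_M2z hA f z).integrable he γ U).const_mul (2 * h))
    · set W := Wp γ e U c with hWdef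
      have hW : ∀ x, (W x).im < 0 := fun x => by rw [hWdef, Wp_im]; linarith [he x]
      have hhW : h < -(W z).im := by rw [hWdef, Wp_im]; linarith
      show ∫ t, En A (kickW z h W t) f ∂nu ≤ En A W f - 2 * h * M2z A W f z
      rw [integral_En_kick hA hW hh hhW f]
      have h2 := le_kap hA hW hh hhW
      have h3 : (∑ y, (-(W y).im) * KK A W z y * (f y - f z)) = mm A W z * muf A W f z :=
        (mm_mul_muf hA hW z).symm
      rw [h3]
      have hm := mm_pos hA hW z
      have h4 : h / mm A W z * (mm A W z * muf A W f z) ^ 2 ≤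
          kap A W z h * (mm A W z * muf A W f z) ^ 2 :=
        mul_le_mul_of_nonneg_right h2 (sq_nonneg _)
      have h5 : h / mm A W z * (mm A W z * muf A W f z) ^ 2 = h * M2z A W f z := by
        unfold M2z
        field_simp
      linarith
  refine h1.trans (le_of_eq ?_)
  rw [EEp_sub he (Adm_En hA f) (adm_cmul (Adm_M2z hA f z) _), EEp_mul]

/-- **budget in the absorption variable** -/
theorem budget (hA : A.IsSymm) {γ : ℝ} (hγ : 0 < γ) (U f : ι → ℝ) {a b : ℝ} (ha : 0 < a)
    (hab : a ≤ b) (hb : b ≤ γ) :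
    ∫ x in a..b, ∑ z, EEp γ (fun _ => x) U (fun W => M2z A W f z) ≤
      1 / (2 * γ ^ 2) * ∑ x, ∑ y, A x y ^ 2 * (f x - f y) ^ 2 := by
  have h1 := multi (γ := γ) (Φ := fun e : ι → ℝ => -EEp γ e U (fun W => En A W f))
    (ρ := fun z e => 2 * EEp γ e U (fun W => M2z A W f z))
    ((continuousOn_EEp (Adm_En hA f) (Cts_En hA f) γ U).neg)
    (fun z => (continuousOn_EEp (Adm_M2z hA f z) (Cts_M2z hA f z) γ U).const_mul 2)
    (by
      intro e he z c hc
      refine Eventually.frequently ?_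
      have hez := (he z).1
      filter_upwards [self_mem_nhdsWithin, mem_nhdsWithin_of_mem_nhds (Iio_mem_nhds hez)]
        with h hh hhz
      have hh' : 0 < h := hh
      have hhz' : h < e z := hhz
      have h2 := EEp_En_drop hA U (fun x => (he x).1) z (he z).2 hh' hhz' f
      have h3 : h * c < h * (2 * EEp γ e U (fun W => M2z A W f z)) :=
        mul_lt_mul_of_pos_left hc hh'
      show h * c < -EEp γ (Function.update e z (e z - h)) U (fun W => En A W f) -
        -EEp γ e U (fun W => En A W f)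
      linarith) ha hab hb
  have h2 : (∫ x in a..b, ∑ z, 2 * EEp γ (fun _ => x) U (fun W => M2z A W f z)) =
      2 * ∫ x in a..b, ∑ z, EEp γ (fun _ => x) U (fun W => M2z A W f z) := by
    rw [← intervalIntegral.integral_const_mul]
    refine intervalIntegral.integral_congr fun x _ => ?_
    exact (Finset.mul_sum _ _ _).symm
  have h3 := energy_le hA hγ U (e := fun _ : ι => b) (fun _ => ha.trans_le hab) (fun _ => hb) f
  have h4 : 0 ≤ EEp γ (fun _ : ι => a) U (fun W => En A W f) :=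
    EEp_nonneg fun W hW => Finset.sum_nonneg fun x _ => Finset.sum_nonneg fun y _ =>
      mul_nonneg (ee_KK_nonneg (fun x => by rw [hW]; linarith) x y) (sq_nonneg _)
  rw [h2] at h1
  have h5 : 1 / (2 * γ ^ 2) * ∑ x, ∑ y, A x y ^ 2 * (f x - f y) ^ 2 =
      (1 / γ ^ 2 * ∑ x, ∑ y, A x y ^ 2 * (f x - f y) ^ 2) / 2 := by
    field_simp
  rw [h5]
  linarith

/-! ### logarithmic time -/

theorem continuousOn_l (hA : A.IsSymm) (γ : ℝ) (U f : ι → ℝ) :
    ContinuousOn (fun x : ℝ => ∑ z, EEp γ (fun _ => x) U (fun W => M2z A W f z)) (Ioc 0 γ) := by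
  refine continuousOn_finset_sum _ fun z _ => ?_
  have h1 := continuousOn_EEp (Adm_M2z hA f z) (Cts_M2z hA f z) γ U
  have hcc : Continuous fun x : ℝ => (fun _ : ι => x) := continuous_pi fun _ => continuous_id
  exact h1.comp hcc.continuousOn fun x hx _ => hx

/-- budget along `ε = b e^{-s}` -/
theorem budget_log (hA : A.IsSymm) {γ : ℝ} (hγ : 0 < γ) (U f : ι → ℝ) {b S : ℝ} (hb0 : 0 < b)
    (hb : b ≤ γ) (hS : 0 ≤ S) :
    ∫ s in (0)..S, (b * Real.exp (-s)) *
        ∑ z, EEp γ (fun _ => b * Real.exp (-s)) U (fun W => M2z A W f z) ≤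
      1 / (2 * γ ^ 2) * ∑ x, ∑ y, A x y ^ 2 * (f x - f y) ^ 2 := by
  set g : ℝ → ℝ := fun x => ∑ z, EEp γ (fun _ => x) U (fun W => M2z A W f z) with hg
  have hmem : ∀ s ∈ uIcc 0 S, b * Real.exp (-s) ∈ Ioc 0 γ := fun s hs => by
    rw [uIcc_of_le hS] at hs
    refine ⟨by positivity, ?_⟩
    have : Real.exp (-s) ≤ 1 := Real.exp_le_one_iff.2 (by linarith [hs.1])
    nlinarith
  have hder : ∀ s ∈ uIcc 0 S, HasDerivAt (fun s => b * Real.exp (-s)) (-(b * Real.exp (-s))) s :=
    fun s _ => by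
      have h1 : HasDerivAt (fun s : ℝ => Real.exp (-s)) (Real.exp (-s) * (-1)) s :=
        (Real.hasDerivAt_exp (-s)).comp s (hasDerivAt_neg s)
      have h2 := h1.const_mul b
      have h3 : b * (Real.exp (-s) * -1) = -(b * Real.exp (-s)) := by ring
      rw [h3] at h2
      exact h2
  have hc := intervalIntegral.integral_comp_mul_deriv' (a := 0) (b := S)
    (f := fun s => b * Real.exp (-s)) (f' := fun s => -(b * Real.exp (-s))) (g := g) hder
    (by fun_prop) (by
      refine (continuousOn_l hA γ U f).mono ?_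
      rintro _ ⟨s, hs, rfl⟩
      exact hmem s hs)
  simp only [neg_zero, Real.exp_zero, mul_one] at hc
  have h1 : (∫ s in (0)..S, (b * Real.exp (-s)) *
        ∑ z, EEp γ (fun _ => b * Real.exp (-s)) U (fun W => M2z A W f z)) =
      -∫ s in (0)..S, (g ∘ fun s => b * Real.exp (-s)) s * -(b * Real.exp (-s)) := by
    rw [← intervalIntegral.integral_neg]
    refine intervalIntegral.integral_congr fun s _ => ?_
    simp only [hg, Function.comp]
    ring
  rw [h1, hc, ← intervalIntegral.integral_symm]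
  have hle : b * Real.exp (-S) ≤ b := by
    have : Real.exp (-S) ≤ 1 := Real.exp_le_one_iff.2 (by linarith)
    nlinarith
  exact budget hA hγ U f (by positivity) hle hb

/-! ### the torus, four functions -/

section torus

variable {N : ℕ} [NeZero N]

/-- the loss rate per site, four functions, at absorption `ε = b e^{-s}` -/
noncomputable def lS (N : ℕ) [NeZero N] (γ b : ℝ) (U : Tor N → ℝ) (s : ℝ) : ℝ :=
  (b * Real.exp (-s)) * (∑ i, ∑ z, EEp γ (fun _ => b * Real.exp (-s)) U
    (fun W => mm (AT N) W z * muf (AT N) W (phi N i) z ^ 2)) / (N : ℝ) ^ 2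

theorem lS_nonneg {γ b : ℝ} (hb0 : 0 < b) (U : Tor N → ℝ) (s : ℝ) : 0 ≤ lS N γ b U s := by
  unfold lS
  have h1 : 0 < b * Real.exp (-s) := by positivity
  refine div_nonneg (mul_nonneg h1.le (Finset.sum_nonneg fun i _ => Finset.sum_nonneg fun z _ =>
    EEp_nonneg fun W hW => ?_)) (by positivity)
  exact M2z_nonneg (AT_symm N) (fun x => by rw [hW]; linarith) (phi N i) z

theorem lS_eq (γ b : ℝ) (U : Tor N → ℝ) (s : ℝ) : lS N γ b U s =
    ∑ i, ((b * Real.exp (-s)) * ∑ z, EEp γ (fun _ => b * Real.exp (-s)) U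
      (fun W => M2z (AT N) W (phi N i) z)) / (N : ℝ) ^ 2 := by
  unfold lS M2z
  rw [Finset.mul_sum, Finset.sum_div]

theorem lS_continuousOn {γ b : ℝ} (hb0 : 0 < b) (hb : b ≤ γ) (U : Tor N → ℝ) :
    ContinuousOn (lS N γ b U) (Ici 0) := by
  have h0 : lS N γ b U = fun s => ∑ i, ((b * Real.exp (-s)) *
      ∑ z, EEp γ (fun _ => b * Real.exp (-s)) U
      (fun W => M2z (AT N) W (phi N i) z)) / (N : ℝ) ^ 2 := funext fun s => lS_eq γ b U s
  rw [h0]
  refine continuousOn_finset_sum _ fun i _ => ?_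
  refine ContinuousOn.div_const (ContinuousOn.mul (by fun_prop) ?_) _
  refine (continuousOn_l (AT_symm N) γ U (phi N i)).comp
    (f := fun s : ℝ => b * Real.exp (-s)) (by fun_prop) fun s hs => ?_
  have hs0 : (0 : ℝ) ≤ s := hs
  refine ⟨by positivity, ?_⟩
  have : Real.exp (-s) ≤ 1 := Real.exp_le_one_iff.2 (by linarith)
  show b * Real.exp (-s) ≤ γ
  nlinarith

theorem lS_intervalIntegrable {γ b : ℝ} (hb0 : 0 < b) (hb : b ≤ γ) (U : Tor N → ℝ) {S : ℝ}
    (hS : 0 ≤ S) : IntervalIntegrable (lS N γ b U) volume 0 S := by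
  refine ContinuousOn.intervalIntegrable ((lS_continuousOn hb0 hb U).mono ?_)
  rw [uIcc_of_le hS]
  exact fun s hs => hs.1

/-- **(S1)**: total loss of the four functions -/
theorem lS_integral_le {γ b : ℝ} (hγ : 0 < γ) (hb0 : 0 < b) (hb : b ≤ γ) (U : Tor N → ℝ) {S : ℝ}
    (hS : 0 ≤ S) : ∫ s in (0)..S, lS N γ b U s ≤ 8 / γ ^ 2 := by
  have hN : (0 : ℝ) < N := by exact_mod_cast NeZero.pos N
  have h0 : (∫ s in (0)..S, lS N γ b U s) = ∑ i, (∫ s in (0)..S, (b * Real.exp (-s)) *
      ∑ z, EEp γ (fun _ => b * Real.exp (-s)) U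
      (fun W => M2z (AT N) W (phi N i) z)) / (N : ℝ) ^ 2 := by
    have h1 : ∀ s, lS N γ b U s = ∑ i, ((b * Real.exp (-s)) *
      ∑ z, EEp γ (fun _ => b * Real.exp (-s)) U
      (fun W => M2z (AT N) W (phi N i) z)) / (N : ℝ) ^ 2 := fun s => lS_eq γ b U s
    rw [intervalIntegral.integral_congr (fun s _ => h1 s)]
    rw [intervalIntegral.integral_finset_sum]
    · refine Finset.sum_congr rfl fun i _ => ?_
      rw [intervalIntegral.integral_div]
    · intro i _
      refine ContinuousOn.intervalIntegrable ?_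
      rw [uIcc_of_le hS]
      refine ContinuousOn.div_const (ContinuousOn.mul (by fun_prop) ?_) _
      refine (continuousOn_l (AT_symm N) γ U (phi N i)).comp
        (f := fun s : ℝ => b * Real.exp (-s)) (by fun_prop) fun s hs => ?_
      have hs0 : (0 : ℝ) ≤ s := hs.1
      refine ⟨by positivity, ?_⟩
      have : Real.exp (-s) ≤ 1 := Real.exp_le_one_iff.2 (by linarith)
      show b * Real.exp (-s) ≤ γ
      nlinarith
  rw [h0]
  have h2 : ∀ i : Fin 4, (∫ s in (0)..S, (b * Real.exp (-s)) *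
      ∑ z, EEp γ (fun _ => b * Real.exp (-s)) U
      (fun W => M2z (AT N) W (phi N i) z)) / (N : ℝ) ^ 2 ≤ 2 / γ ^ 2 := by
    intro i
    have h3 := budget_log (AT_symm N) hγ U (phi N i) hb0 hb hS
    have h4 : ∑ x, ∑ y, AT N x y ^ 2 * (phi N i x - phi N i y) ^ 2 ≤ 4 * (N : ℝ) ^ 2 := by
      simp only [AT_sq]
      exact phi_energy_le i
    rw [div_le_iff₀ (by positivity)]
    refine h3.trans ?_
    calc 1 / (2 * γ ^ 2) * ∑ x, ∑ y, AT N x y ^ 2 * (phi N i x - phi N i y) ^ 2
        ≤ 1 / (2 * γ ^ 2) * (4 * (N : ℝ) ^ 2) := mul_le_mul_of_nonneg_left h4 (by positivity)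
      _ = 2 / γ ^ 2 * (N : ℝ) ^ 2 := by field_simp; ring
  refine (Finset.sum_le_sum fun i _ => h2 i).trans (le_of_eq ?_)
  rw [Finset.sum_const, Finset.card_univ, Fintype.card_fin, nsmul_eq_mul]
  push_cast
  ring

end torus

end P365L.FIN
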