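import Mathlib

/-!
# P365, LOC-4: closing of the flow inequalities and pigeonhole over scales (FIN).
Pure real analysis, discrete time.
-/

set_option linter.all false

namespace P365L.FIN

open Finset

/-- scale index at offset `o` and time `s`: `4 ^ sc o s ≤ exp (o + s)` -/
noncomputable def sc (o s : ℝ) : ℕ := ⌊(o + s) / Real.log 4⌋₊

theorem log4_pos : 0 < Real.log 4 := Real.log_pos (by norm_num)

theorem sc_mono {o o' s s' : ℝ} (h : o + s ≤ o' + s') : sc o s ≤ sc o' s' :=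
  Nat.floor_mono (div_le_div_of_nonneg_right h log4_pos.le)

theorem sc_add {o s : ℝ} (h : 0 ≤ o + s) (g : ℕ) : sc (o + g * Real.log 4) s = sc o s + g := by
  have h1 : (o + g * Real.log 4 + s) / Real.log 4 = (o + s) / Real.log 4 + g := by
    have := log4_pos.ne'
    field_simp
    ring
  rw [sc, h1, Nat.floor_add_natCast (div_nonneg h log4_pos.le)]
  rfl

theorem four_pow_sc {o s : ℝ} (h : 0 ≤ o + s) : (4 : ℝ) ^ (sc o s) ≤ Real.exp (o + s) := by
  have h1 : ((sc o s : ℕ) : ℝ) ≤ (o + s) / Real.log 4 := Nat.floor_le (div_nonneg h log4_pos.le)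
  have h2 : (sc o s : ℝ) * Real.log 4 ≤ o + s := (le_div_iff₀ log4_pos).1 h1
  calc (4 : ℝ) ^ (sc o s) = Real.exp ((sc o s : ℝ) * Real.log 4) := by
        rw [mul_comm, Real.exp_mul, Real.exp_log (by norm_num), Real.rpow_natCast]
    _ ≤ _ := Real.exp_le_exp.2 h2

/-- bounds valid at every time -/
structure Bounds (Dmax : ℝ) (D M J L : ℕ → ℕ → ℝ → ℝ) : Prop where
  mono : ∀ n i s, 0 ≤ s → i + 1 ≤ n → D n i s ≤ D n (i + 1) s
  D_le : ∀ n i s, 0 ≤ s → i ≤ n → D n i s ≤ Dmax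
  D_nonneg : ∀ n i s, 0 ≤ s → i ≤ n → 0 ≤ D n i s
  M_nonneg : ∀ n i s, 0 ≤ s → i ≤ n → 0 ≤ M n i s
  M_le : ∀ n i s, 0 ≤ s → i ≤ n → M n i s ≤ 2 * D n i s
  J_nonneg : ∀ n i s, 0 ≤ s → i ≤ n → 0 ≤ J n i s
  J_le : ∀ n i s, 0 ≤ s → i ≤ n → J n i s ≤ D n i s
  L_nonneg : ∀ n i s, 0 ≤ s → i ≤ n → 0 ≤ L n i s

/-- one step inequalities with errors `O(h²)` -/
def Steps (C1 c1 : ℝ) (D M J L : ℕ → ℕ → ℝ → ℝ) : Prop :=
  ∀ (n : ℕ) (S : ℝ), 0 < S → ∃ Cst h0 : ℝ, 0 ≤ Cst ∧ 0 < h0 ∧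
    ∀ i ≤ n, ∀ s h : ℝ, 0 ≤ s → 0 < h → h ≤ h0 → s + h ≤ S →
      D n i (s + h) ≤ D n i s - h * M n i s + Cst * h ^ 2 ∧
      M n i s + h * (-5 * M n i s + J n i s) - Cst * h ^ 2 ≤ M n i (s + h) ∧
      J n i s + h * (-C1 * (J n i s + M n i s) + c1 * L n i s) - Cst * h ^ 2 ≤ J n i (s + h)

/-- KEY lower bound -/
def Key (th0 : ℝ) (D M J L : ℕ → ℕ → ℝ → ℝ) : Prop :=
  ∀ d0 : ℝ, 0 < d0 → ∀ N' : ℝ, 0 < N' → ∃ (cK : ℝ) (g0 : ℕ), 0 < cK ∧
    ∀ (n b i j : ℕ) (s : ℝ), 0 ≤ s → b + 3 ≤ i → i + g0 ≤ j → j ≤ n →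
      (4 : ℝ) ^ b ≤ N' * Real.exp s → d0 ≤ D n b s → D n j s ≤ (1 + th0) * D n b s →
      cK ≤ M n i s + J n i s + L n i s

theorem sum_tel (x y : ℕ → ℝ) (e : ℝ) {K0 K1 : ℕ} (hK : K0 ≤ K1)
    (h : ∀ k, K0 ≤ k → k < K1 → x (k + 1) ≤ x k - y k + e) :
    ∑ k ∈ Ico K0 K1, y k ≤ x K0 - x K1 + ((K1 : ℝ) - K0) * e := by
  induction K1, hK using Nat.le_induction with
  | base => simp
  | succ K1 hK ih =>
    rw [Finset.sum_Ico_succ_top hK]
    have h1 := ih fun k h1 h2 => h k h1 (h2.trans (Nat.lt_succ_self _))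
    have h2 := h K1 hK (Nat.lt_succ_self _)
    push_cast
    nlinarith [h1, h2]

/-- total budget constant -/
noncomputable def Ctot (Dmax C1 c1 : ℝ) : ℝ :=
  (Dmax + 1) + (7 * Dmax + 6) + (Dmax + C1 * (8 * Dmax + 7) + 1) / c1

theorem Ctot_pos {Dmax C1 c1 : ℝ} (hD : 0 < Dmax) (hC : 0 ≤ C1) (hc : 0 < c1) :
    0 < Ctot Dmax C1 c1 := by
  unfold Ctot
  positivity

variable {Dmax C1 c1 th0 : ℝ} {D M J L : ℕ → ℕ → ℝ → ℝ}

/-- budget on a run of consecutive grid times at a fixed scale -/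
theorem run_bound (hC : 0 ≤ C1) (hc : 0 < c1) (hB : Bounds Dmax D M J L)
    {n : ℕ} {S Cst h0 : ℝ} (hCst : 0 ≤ Cst)
    (hst : ∀ i ≤ n, ∀ s h : ℝ, 0 ≤ s → 0 < h → h ≤ h0 → s + h ≤ S →
      D n i (s + h) ≤ D n i s - h * M n i s + Cst * h ^ 2 ∧
      M n i s + h * (-5 * M n i s + J n i s) - Cst * h ^ 2 ≤ M n i (s + h) ∧
      J n i s + h * (-C1 * (J n i s + M n i s) + c1 * L n i s) - Cst * h ^ 2 ≤ J n i (s + h))
    {h : ℝ} (hh : 0 < h) (hh0 : h ≤ h0) (hh1 : S * Cst * h ≤ 1) {i : ℕ} (hi : i ≤ n)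
    {K0 K1 : ℕ} (hK : K0 ≤ K1) (hKS : (K1 : ℝ) * h ≤ S) :
    ∑ k ∈ Ico K0 K1, h * (M n i (k * h) + J n i (k * h) + L n i (k * h)) ≤ Ctot Dmax C1 c1 := by
  have hs : ∀ k : ℕ, 0 ≤ (k : ℝ) * h := fun k => by positivity
  have hstep : ∀ k, K0 ≤ k → k < K1 → (k : ℝ) * h + h ≤ S := fun k _ hk => by
    have h1 : ((k + 1 : ℕ) : ℝ) ≤ (K1 : ℝ) := Nat.cast_le.2 hk
    have h2 : ((k + 1 : ℕ) : ℝ) * h ≤ K1 * h := mul_le_mul_of_nonneg_right h1 hh.le
    push_cast at h2
    linarith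
  have hcast : ∀ k : ℕ, ((k + 1 : ℕ) : ℝ) * h = (k : ℝ) * h + h := fun k => by push_cast; ring
  have herr : ((K1 : ℝ) - K0) * (Cst * h ^ 2) ≤ 1 := by
    have h1 : ((K1 : ℝ) - K0) * h ≤ S := by
      have : 0 ≤ (K0 : ℝ) * h := hs K0
      linarith [hKS, sub_mul (K1 : ℝ) K0 h]
    calc ((K1 : ℝ) - K0) * (Cst * h ^ 2) = (((K1 : ℝ) - K0) * h) * (Cst * h) := by ring
      _ ≤ S * (Cst * h) := mul_le_mul_of_nonneg_right h1 (by positivity)
      _ = S * Cst * h := by ring
      _ ≤ 1 := hh1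
  -- M
  have hM : ∑ k ∈ Ico K0 K1, h * M n i (k * h) ≤ Dmax + 1 := by
    have h1 := sum_tel (fun k => D n i ((k : ℝ) * h)) (fun k => h * M n i (k * h)) (Cst * h ^ 2) hK
      (fun k hk hk' => by
        have := (hst i hi (k * h) h (hs k) hh hh0 (hstep k hk hk')).1
        simp only [hcast]
        exact this)
    have h2 := hB.D_le n i _ (hs K0) hi
    have h3 := hB.D_nonneg n i _ (hs K1) hi
    linarith
  have hJ : ∑ k ∈ Ico K0 K1, h * J n i (k * h) ≤ 7 * Dmax + 6 := by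
    have h1 := sum_tel (fun k => - M n i ((k : ℝ) * h))
      (fun k => h * J n i (k * h) - 5 * (h * M n i (k * h))) (Cst * h ^ 2) hK
      (fun k hk hk' => by
        have := (hst i hi (k * h) h (hs k) hh hh0 (hstep k hk hk')).2.1
        simp only [hcast]
        linarith)
    have h1' : ∑ k ∈ Ico K0 K1, (h * J n i (k * h) - 5 * (h * M n i (k * h))) =
        ∑ k ∈ Ico K0 K1, h * J n i (k * h) - 5 * ∑ k ∈ Ico K0 K1, h * M n i (k * h) := by
      rw [Finset.sum_sub_distrib, Finset.mul_sum (Ico K0 K1) (fun k => h * M n i (k * h)) 5]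
    rw [h1'] at h1
    have h2 := hB.M_le n i _ (hs K1) hi
    have h3 := hB.M_nonneg n i _ (hs K0) hi
    have h4 := hB.D_le n i _ (hs K1) hi
    linarith
  have hL : ∑ k ∈ Ico K0 K1, h * L n i (k * h) ≤ (Dmax + C1 * (8 * Dmax + 7) + 1) / c1 := by
    rw [le_div_iff₀ hc]
    have h1 := sum_tel (fun k => - J n i ((k : ℝ) * h))
      (fun k => c1 * (h * L n i (k * h)) - C1 * (h * J n i (k * h) + h * M n i (k * h)))
      (Cst * h ^ 2) hK
      (fun k hk hk' => by
        have := (hst i hi (k * h) h (hs k) hh hh0 (hstep k hk hk')).2.2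
        simp only [hcast]
        linarith)
    have h1' : ∑ k ∈ Ico K0 K1, (c1 * (h * L n i (k * h)) -
        C1 * (h * J n i (k * h) + h * M n i (k * h))) =
        c1 * ∑ k ∈ Ico K0 K1, h * L n i (k * h) -
          C1 * (∑ k ∈ Ico K0 K1, h * J n i (k * h) + ∑ k ∈ Ico K0 K1, h * M n i (k * h)) := by
      rw [Finset.sum_sub_distrib, ← Finset.sum_add_distrib, Finset.mul_sum, Finset.mul_sum]
    rw [h1'] at h1
    have h2 := hB.J_le n i _ (hs K1) hi
    have h3 := hB.J_nonneg n i _ (hs K0) hi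
    have h4 := hB.D_le n i _ (hs K1) hi
    have h5 : C1 * (∑ k ∈ Ico K0 K1, h * J n i (k * h) + ∑ k ∈ Ico K0 K1, h * M n i (k * h)) ≤
        C1 * (8 * Dmax + 7) := mul_le_mul_of_nonneg_left (by linarith) hC
    linarith
  have h1 : ∑ k ∈ Ico K0 K1, h * (M n i (k * h) + J n i (k * h) + L n i (k * h)) =
      ∑ k ∈ Ico K0 K1, h * M n i (k * h) + ∑ k ∈ Ico K0 K1, h * J n i (k * h) +
        ∑ k ∈ Ico K0 K1, h * L n i (k * h) := by
    rw [← Finset.sum_add_distrib, ← Finset.sum_add_distrib]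
    exact Finset.sum_congr rfl fun k _ => by ring
  rw [h1, Ctot]
  linarith

/-- number of grid times of a block at which the lower bound holds -/
theorem block_bound (hC : 0 ≤ C1) (hc : 0 < c1) (hB : Bounds Dmax D M J L)
    {n : ℕ} {S Cst h0 : ℝ} (hCst : 0 ≤ Cst)
    (hst : ∀ i ≤ n, ∀ s h : ℝ, 0 ≤ s → 0 < h → h ≤ h0 → s + h ≤ S →
      D n i (s + h) ≤ D n i s - h * M n i s + Cst * h ^ 2 ∧
      M n i s + h * (-5 * M n i s + J n i s) - Cst * h ^ 2 ≤ M n i (s + h) ∧
      J n i s + h * (-C1 * (J n i s + M n i s) + c1 * L n i s) - Cst * h ^ 2 ≤ J n i (s + h))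
    {h : ℝ} (hh : 0 < h) (hh0 : h ≤ h0) (hh1 : S * Cst * h ≤ 1) {i : ℕ} (hi : i ≤ n)
    {K0 K1 : ℕ} (hK : K0 ≤ K1) (hKS : (K1 : ℝ) * h ≤ S) {cK : ℝ} (hcK : 0 < cK)
    (P : ℕ → Prop) [DecidablePred P]
    (hP : ∀ k, K0 ≤ k → k < K1 → P k → cK ≤ M n i (k * h) + J n i (k * h) + L n i (k * h)) :
    h * (((Ico K0 K1).filter P).card : ℝ) ≤ Ctot Dmax C1 c1 / cK := by
  rw [le_div_iff₀ hcK]
  refine le_trans ?_ (run_bound hC hc hB hCst hst hh hh0 hh1 hi hK hKS)
  have h1 : h * (((Ico K0 K1).filter P).card : ℝ) * cK = ∑ k ∈ (Ico K0 K1).filter P, h * cK := by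
    rw [Finset.sum_const, nsmul_eq_mul]
    ring
  rw [h1]
  calc ∑ k ∈ (Ico K0 K1).filter P, h * cK
      ≤ ∑ k ∈ (Ico K0 K1).filter P, h * (M n i (k * h) + J n i (k * h) + L n i (k * h)) := by
        refine Finset.sum_le_sum fun k hk => ?_
        rw [Finset.mem_filter, Finset.mem_Ico] at hk
        exact mul_le_mul_of_nonneg_left (hP k hk.1.1 hk.1.2 hk.2) hh.le
    _ ≤ _ := by
        refine Finset.sum_le_sum_of_subset_of_nonneg (Finset.filter_subset _ _) fun k hk _ => ?_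
        have hs : 0 ≤ (k : ℝ) * h := by positivity
        have h2 := hB.M_nonneg n i _ hs hi
        have h3 := hB.J_nonneg n i _ hs hi
        have h4 := hB.L_nonneg n i _ hs hi
        positivity

/-- covering of `range N` by blocks of length `ell` -/
theorem card_blocks (N ell : ℕ) (hell : 0 < ell) (P : ℕ → Prop) [DecidablePred P] :
    ((range N).filter P).card ≤ ∑ r ∈ range (N / ell + 1),
      ((Ico (r * ell) (min ((r + 1) * ell) N)).filter P).card := by
  have h1 : ∀ k ∈ (range N).filter P, k / ell ∈ range (N / ell + 1) := fun k hk => by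
    rw [Finset.mem_filter, Finset.mem_range] at hk
    rw [Finset.mem_range, Nat.lt_succ_iff]
    exact Nat.div_le_div_right hk.1.le
  rw [Finset.card_eq_sum_card_fiberwise h1]
  refine Finset.sum_le_sum fun r _ => Finset.card_le_card fun k hk => ?_
  rw [Finset.mem_filter, Finset.mem_filter, Finset.mem_range] at hk
  obtain ⟨⟨hkN, hkP⟩, hkr⟩ := hk
  rw [Finset.mem_filter, Finset.mem_Ico, lt_min_iff]
  have h2 := (Nat.div_eq_iff hell).1 hkr
  refine ⟨⟨?_, ?_, hkN⟩, hkP⟩
  · omega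
  · have : (r + 1) * ell = r * ell + ell := by ring
    omega

/-- one window: the number of bad flat grid times -/
theorem window_bound (hDmax : 0 < Dmax) (hC : 0 ≤ C1) (hc : 0 < c1) (hB : Bounds Dmax D M J L)
    {n : ℕ} {S Cst h0 : ℝ} (hCst : 0 ≤ Cst)
    (hst : ∀ i ≤ n, ∀ s h : ℝ, 0 ≤ s → 0 < h → h ≤ h0 → s + h ≤ S →
      D n i (s + h) ≤ D n i s - h * M n i s + Cst * h ^ 2 ∧
      M n i s + h * (-5 * M n i s + J n i s) - Cst * h ^ 2 ≤ M n i (s + h) ∧
      J n i s + h * (-C1 * (J n i s + M n i s) + c1 * L n i s) - Cst * h ^ 2 ≤ J n i (s + h))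
    {h : ℝ} (hh : 0 < h) (hh0 : h ≤ h0) (hh1 : S * Cst * h ≤ 1)
    {o l d0 cK : ℝ} {g0 : ℕ} (ho : 0 ≤ o) (hl : 0 < l) (hhl : 2 * h ≤ l) (hcK : 0 < cK)
    (hkey : ∀ (b i j : ℕ) (s : ℝ), 0 ≤ s → b + 3 ≤ i → i + g0 ≤ j → j ≤ n →
      (4 : ℝ) ^ b ≤ Real.exp o * Real.exp s → d0 ≤ D n b s → D n j s ≤ (1 + th0) * D n b s →
      cK ≤ M n i s + J n i s + L n i s)
    (hn : sc (o + l + (3 + g0 : ℕ) * Real.log 4) S ≤ n) (N : ℕ) (hN : (N : ℝ) * h ≤ S) :
    h * (((range N).filter (fun k : ℕ => d0 ≤ D n (sc o (k * h)) (k * h) ∧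
      D n (sc (o + l + (3 + g0 : ℕ) * Real.log 4) (k * h)) (k * h) ≤
        (1 + th0) * D n (sc o (k * h)) (k * h))).card : ℝ) ≤
      (2 * S / l + 1) * (Ctot Dmax C1 c1 / cK) := by
  classical
  set P : ℕ → Prop := fun k : ℕ => d0 ≤ D n (sc o (k * h)) (k * h) ∧
      D n (sc (o + l + (3 + g0 : ℕ) * Real.log 4) (k * h)) (k * h) ≤
        (1 + th0) * D n (sc o (k * h)) (k * h) with hPdef
  set ell : ℕ := ⌊l / h⌋₊ with hell
  have h2 : 2 ≤ l / h := by rw [le_div_iff₀ hh]; exact hhl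
  have hell2 : 2 ≤ ell := Nat.le_floor (by exact_mod_cast h2)
  have hell0 : 0 < ell := by omega
  have hellh : (ell : ℝ) * h ≤ l := by
    have := Nat.floor_le (div_nonneg hl.le hh.le)
    exact (le_div_iff₀ hh).1 this
  have hellge : l / (2 * h) ≤ ell := by
    have h3 : l / h < ell + 1 := Nat.lt_floor_add_one _
    have h4 : (2 : ℝ) ≤ ell := by exact_mod_cast hell2
    have h5 : l / (2 * h) = (l / h) / 2 := by rw [mul_comm, div_mul_eq_div_div]
    rw [h5]
    linarith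
  have hS : 0 ≤ S := le_trans (by positivity) hN
  have hcov := card_blocks N ell hell0 P
  have hblock : ∀ r ∈ range (N / ell + 1),
      h * (((Ico (r * ell) (min ((r + 1) * ell) N)).filter P).card : ℝ) ≤
        Ctot Dmax C1 c1 / cK := by
    intro r hr
    have hrN : r * ell ≤ N := by
      rw [Finset.mem_range, Nat.lt_succ_iff] at hr
      calc r * ell ≤ N / ell * ell := Nat.mul_le_mul_right _ hr
        _ ≤ N := Nat.div_mul_le_self _ _
    have hrS : (r : ℝ) * (ell * h) ≤ S := by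
      calc (r : ℝ) * (ell * h) = ((r * ell : ℕ) : ℝ) * h := by push_cast; ring
        _ ≤ N * h := mul_le_mul_of_nonneg_right (by exact_mod_cast hrN) hh.le
        _ ≤ S := hN
    -- time at the start of the block
    set t : ℝ := (r : ℝ) * (ell * h) with ht
    have ht0 : 0 ≤ t := by positivity
    set i : ℕ := sc (o + l) t + 3 with hi
    have hsc : sc (o + l + (3 + g0 : ℕ) * Real.log 4) t = i + g0 := by
      rw [sc_add (by linarith), hi]
      omega
    have hin : i ≤ n := by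
      have h3 : sc (o + l + (3 + g0 : ℕ) * Real.log 4) t ≤ n := (sc_mono (by linarith)).trans hn
      rw [hsc] at h3
      omega
    refine block_bound hC hc hB hCst hst hh hh0 hh1 hin ?_ ?_ hcK P ?_
    · refine le_min ?_ hrN
      exact Nat.mul_le_mul_right _ (Nat.le_succ r)
    · calc ((min ((r + 1) * ell) N : ℕ) : ℝ) * h ≤ (N : ℝ) * h :=
            mul_le_mul_of_nonneg_right (by exact_mod_cast min_le_right _ _) hh.le
        _ ≤ S := hN
    · intro k hk0 hk1 hPk
      have hs : 0 ≤ (k : ℝ) * h := by positivity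
      have hk1' := (lt_min_iff.1 hk1).1
      have htk : t ≤ k * h := by
        calc t = ((r * ell : ℕ) : ℝ) * h := by rw [ht]; push_cast; ring
          _ ≤ k * h := mul_le_mul_of_nonneg_right (by exact_mod_cast hk0) hh.le
      have hkt : (k : ℝ) * h ≤ t + l := by
        have h3 : (k : ℝ) ≤ ((r + 1) * ell : ℕ) := by exact_mod_cast hk1'.le
        calc (k : ℝ) * h ≤ (((r + 1) * ell : ℕ) : ℝ) * h := mul_le_mul_of_nonneg_right h3 hh.le
          _ = t + ell * h := by rw [ht]; push_cast; ring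
          _ ≤ t + l := by linarith
      have hkS : (k : ℝ) * h ≤ S := by
        have h3 : (k : ℝ) ≤ N := by exact_mod_cast (lt_min_iff.1 hk1).2.le
        exact (mul_le_mul_of_nonneg_right h3 hh.le).trans hN
      refine hkey (sc o (k * h)) i (sc (o + l + (3 + g0 : ℕ) * Real.log 4) (k * h)) (k * h) hs
        ?_ ?_ ?_ ?_ hPk.1 hPk.2
      · rw [hi]
        have : sc o (k * h) ≤ sc (o + l) t := sc_mono (by linarith)
        omega
      · rw [← hsc]
        exact sc_mono (by linarith)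
      · exact (sc_mono (by linarith)).trans hn
      · rw [← Real.exp_add]
        exact four_pow_sc (by linarith)
  have hA : 0 ≤ Ctot Dmax C1 c1 / cK := (div_pos (Ctot_pos hDmax hC hc) hcK).le
  calc h * (((range N).filter P).card : ℝ)
      ≤ h * ((∑ r ∈ range (N / ell + 1),
        ((Ico (r * ell) (min ((r + 1) * ell) N)).filter P).card : ℕ) : ℝ) :=
        mul_le_mul_of_nonneg_left (by exact_mod_cast hcov) hh.le
    _ = ∑ r ∈ range (N / ell + 1),
        h * (((Ico (r * ell) (min ((r + 1) * ell) N)).filter P).card : ℝ) := by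
        push_cast
        rw [Finset.mul_sum]
    _ ≤ ∑ r ∈ range (N / ell + 1), Ctot Dmax C1 c1 / cK := Finset.sum_le_sum hblock
    _ = ((N / ell + 1 : ℕ) : ℝ) * (Ctot Dmax C1 c1 / cK) := by
        rw [Finset.sum_const, Finset.card_range, nsmul_eq_mul]
    _ ≤ (2 * S / l + 1) * (Ctot Dmax C1 c1 / cK) := by
        refine mul_le_mul_of_nonneg_right ?_ hA
        push_cast
        have h3 : ((N / ell : ℕ) : ℝ) ≤ (N : ℝ) / ell := Nat.cast_div_le
        have h4 : (N : ℝ) / ell ≤ 2 * S / l := by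
          have hellpos : (0 : ℝ) < ell := by exact_mod_cast hell0
          rw [div_le_div_iff₀ hellpos hl]
          have h5 : l ≤ ell * (2 * h) := by
            rwa [div_le_iff₀ (by positivity)] at hellge
          calc (N : ℝ) * l ≤ N * (ell * (2 * h)) :=
                mul_le_mul_of_nonneg_left h5 (Nat.cast_nonneg _)
            _ = 2 * (N * h) * ell := by ring
            _ ≤ 2 * S * ell := by
                refine mul_le_mul_of_nonneg_right ?_ hellpos.le
                linarith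
        linarith

theorem Bounds.mono' (hB : Bounds Dmax D M J L) {n i j : ℕ} {s : ℝ} (hs : 0 ≤ s) (hij : i ≤ j)
    (hj : j ≤ n) : D n i s ≤ D n j s := by
  induction j, hij using Nat.le_induction with
  | base => exact le_rfl
  | succ j hij ih => exact (ih (by omega)).trans (hB.mono n j s hs hj)

/-- (FIN): the diffusivity at the scale `sqrt (Nb / eps)` is below `d0` at all times except for a
small proportion. -/
theorem fin_disc (hDmax : 0 < Dmax) (hC : 0 ≤ C1) (hc : 0 < c1) (hth : 0 < th0)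
    (hB : Bounds Dmax D M J L) (hst : Steps C1 c1 D M J L) (hK : Key th0 D M J L)
    (d0 : ℝ) (hd0 : 0 < d0) (Nb : ℝ) (hNb : 1 ≤ Nb) (β : ℝ) (hβ : 0 < β) :
    ∃ S0 : ℝ, 0 < S0 ∧ ∀ S : ℝ, S0 ≤ S → ∃ n0 : ℕ, ∀ n : ℕ, n0 ≤ n → ∃ h0 : ℝ, 0 < h0 ∧
      ∀ h : ℝ, 0 < h → h ≤ h0 → ∀ N : ℕ, (N : ℝ) * h ≤ S →
        h * (((range N).filter (fun k : ℕ =>
          d0 ≤ D n (sc (Real.log Nb) (k * h)) (k * h))).card : ℝ) ≤ β * S := by
  classical
  choose cK g0 hcK hkey using fun o : ℝ => hK d0 hd0 (Real.exp o) (Real.exp_pos o)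
  obtain ⟨m, hm⟩ : ∃ m : ℕ, Dmax / d0 < (1 + th0) ^ m :=
    pow_unbounded_of_one_lt _ (by linarith)
  set Ct := Ctot Dmax C1 c1 with hCt
  have hCtpos : 0 < Ct := Ctot_pos hDmax hC hc
  -- number of windows, made positive
  set m' : ℕ := m + 1 with hm'
  have hm'pos : (0 : ℝ) < m' := by exact_mod_cast Nat.succ_pos m
  have hm1 : Dmax < (1 + th0) ^ m' * d0 := by
    rw [div_lt_iff₀ hd0] at hm
    have h1 : (1 + th0) ^ m ≤ (1 + th0) ^ m' := pow_le_pow_right₀ (by linarith) (Nat.le_succ m)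
    exact hm.trans_le (mul_le_mul_of_nonneg_right h1 hd0.le)
  set l : ℝ → ℝ := fun o => 4 * m' * (Ct / cK o) / β with hl
  have hlpos : ∀ o, 0 < l o := fun o => by
    have := hcK o
    simp only [hl]
    positivity
  set nx : ℝ → ℝ := fun o => o + l o + (3 + g0 o : ℕ) * Real.log 4 with hnx
  have hnxge : ∀ o, o ≤ nx o := fun o => by
    have h1 := hlpos o
    have h2 : 0 ≤ ((3 + g0 o : ℕ) : ℝ) * Real.log 4 := mul_nonneg (Nat.cast_nonneg _) log4_pos.le
    simp only [hnx]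
    linarith
  set off : ℕ → ℝ := fun q => nx^[q] (Real.log Nb) with hoff
  have hoffs : ∀ q, off (q + 1) = nx (off q) := fun q => by
    simp only [hoff, Function.iterate_succ_apply']
  have hoffmono : Monotone off := monotone_nat_of_le_succ fun q => by
    rw [hoffs]
    exact hnxge _
  have hoff0 : 0 ≤ off 0 := by
    simp only [hoff, Function.iterate_zero, id_eq]
    exact Real.log_nonneg hNb
  have hoffnn : ∀ q, 0 ≤ off q := fun q => hoff0.trans (hoffmono (Nat.zero_le q))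
  set SA : ℝ := ∑ q ∈ range m', Ct / cK (off q) with hSA
  have hSApos : 0 ≤ SA := Finset.sum_nonneg fun q _ => (div_pos hCtpos (hcK _)).le
  refine ⟨2 * SA / β + 1, by positivity, fun S hS => ⟨sc (off m') S, fun n hn => ?_⟩⟩
  have hSpos : 0 < S := lt_of_lt_of_le (by positivity) hS
  have hS2 : SA ≤ β * S / 2 := by
    have h1 : 2 * SA / β ≤ S := by linarith
    rw [div_le_iff₀ hβ] at h1
    linarith
  obtain ⟨Cst, h0, hCst, hh0, hstep⟩ := hst n S hSpos
  set lam : ℝ := 1 / (1 + ∑ q ∈ range m', 1 / l (off q)) with hlam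
  have hsum0 : 0 ≤ ∑ q ∈ range m', 1 / l (off q) :=
    Finset.sum_nonneg fun q _ => (one_div_pos.2 (hlpos _)).le
  have hlampos : 0 < lam := by simp only [hlam]; positivity
  have hlamle : ∀ q ∈ range m', lam ≤ l (off q) := fun q hq => by
    have h1 : 1 / l (off q) ≤ ∑ q ∈ range m', 1 / l (off q) :=
      Finset.single_le_sum (f := fun q => 1 / l (off q))
        (fun q _ => (one_div_pos.2 (hlpos _)).le) hq
    have h2 : 1 / l (off q) ≤ 1 + ∑ q ∈ range m', 1 / l (off q) := by linarith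
    have h3 := one_div_le_one_div_of_le (one_div_pos.2 (hlpos (off q))) h2
    rwa [one_div_one_div] at h3
  refine ⟨min h0 (min (1 / (S * Cst + 1)) (lam / 2)), by positivity, ?_⟩
  intro h hh hhle N hN
  have hle1 : h ≤ h0 := hhle.trans (min_le_left _ _)
  have hle2 : h ≤ 1 / (S * Cst + 1) := hhle.trans ((min_le_right _ _).trans (min_le_left _ _))
  have hle3 : h ≤ lam / 2 := hhle.trans ((min_le_right _ _).trans (min_le_right _ _))
  have hh1 : S * Cst * h ≤ 1 := by
    have h1 : 0 ≤ S * Cst := by positivity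
    have h2 : h * (S * Cst + 1) ≤ 1 := (le_div_iff₀ (by linarith)).1 hle2
    nlinarith
  have hscn : ∀ q, q ≤ m' → ∀ s, s ≤ S → sc (off q) s ≤ n := fun q hq s hs =>
    (sc_mono (add_le_add (hoffmono hq) hs)).trans hn
  set P : ℕ → ℕ → Prop := fun q k => d0 ≤ D n (sc (off q) (k * h)) (k * h) ∧
      D n (sc (off q + l (off q) + (3 + g0 (off q) : ℕ) * Real.log 4) (k * h)) (k * h) ≤
        (1 + th0) * D n (sc (off q) (k * h)) (k * h) with hPdef
  have hwin : ∀ q ∈ range m', h * (((range N).filter (P q)).card : ℝ) ≤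
      (2 * S / l (off q) + 1) * (Ct / cK (off q)) := by
    intro q hq
    refine window_bound hDmax hC hc hB hCst hstep hh hle1 hh1 (hoffnn q) (hlpos _) ?_ (hcK _)
      (fun b i j s h1 h2 h3 h4 h5 h6 h7 => hkey (off q) n b i j s h1 h2 h3 h4 h5 h6 h7) ?_ N hN
    · have := hlamle q hq
      linarith
    · have h1 := hscn (q + 1) (Finset.mem_range.1 hq) S le_rfl
      rw [hoffs] at h1
      exact h1
  have hcover : (range N).filter (fun k : ℕ => d0 ≤ D n (sc (Real.log Nb) (k * h)) (k * h)) ⊆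
      (range m').biUnion fun q => (range N).filter (P q) := by
    intro k hk
    rw [Finset.mem_filter] at hk
    obtain ⟨hkN, hbad⟩ := hk
    rw [Finset.mem_biUnion]
    by_contra hcon
    simp only [not_exists, not_and] at hcon
    have hs : 0 ≤ (k : ℝ) * h := by positivity
    have hkS : (k : ℝ) * h ≤ S := by
      have h3 : (k : ℝ) ≤ N := by exact_mod_cast (Finset.mem_range.1 hkN).le
      exact (mul_le_mul_of_nonneg_right h3 hh.le).trans hN
    have hbad0 : d0 ≤ D n (sc (off 0) (k * h)) (k * h) := by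
      simpa only [hoff, Function.iterate_zero, id_eq] using hbad
    have hgrow : ∀ q, q ≤ m' → (1 + th0) ^ q * d0 ≤ D n (sc (off q) (k * h)) (k * h) := by
      intro q
      induction q with
      | zero => intro _; simpa using hbad0
      | succ q ih =>
        intro hq
        have h1 := ih (by omega)
        have h2 := hcon q (Finset.mem_range.2 hq)
        rw [Finset.mem_filter, not_and] at h2
        have h3 := h2 hkN
        simp only [hPdef, not_and, not_le] at h3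
        have h4 : d0 ≤ D n (sc (off q) (k * h)) (k * h) :=
          hbad0.trans (hB.mono' hs (sc_mono (by linarith [hoffmono (Nat.zero_le q)]))
            (hscn q (by omega) _ hkS))
        have h5 := h3 h4
        have h6 : off (q + 1) = off q + l (off q) + (3 + g0 (off q) : ℕ) * Real.log 4 := by
          rw [hoffs]
        rw [h6]
        calc (1 + th0) ^ (q + 1) * d0 = (1 + th0) * ((1 + th0) ^ q * d0) := by ring
          _ ≤ (1 + th0) * D n (sc (off q) (k * h)) (k * h) :=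
              mul_le_mul_of_nonneg_left h1 (by linarith)
          _ ≤ _ := h5.le
    have h1 := hgrow m' le_rfl
    have h2 := hB.D_le n (sc (off m') (k * h)) (k * h) hs (hscn m' le_rfl _ hkS)
    linarith
  calc h * (((range N).filter (fun k : ℕ => d0 ≤ D n (sc (Real.log Nb) (k * h)) (k * h))).card : ℝ)
      ≤ h * ((∑ q ∈ range m', ((range N).filter (P q)).card : ℕ) : ℝ) := by
        refine mul_le_mul_of_nonneg_left ?_ hh.le
        exact_mod_cast (Finset.card_le_card hcover).trans Finset.card_biUnion_le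
    _ = ∑ q ∈ range m', h * (((range N).filter (P q)).card : ℝ) := by
        push_cast
        rw [Finset.mul_sum]
    _ ≤ ∑ q ∈ range m', (2 * S / l (off q) + 1) * (Ct / cK (off q)) := Finset.sum_le_sum hwin
    _ = ∑ q ∈ range m', (β * S / (2 * m') + Ct / cK (off q)) := by
        refine Finset.sum_congr rfl fun q _ => ?_
        have h1 := hcK (off q)
        simp only [hl]
        field_simp
        ring
    _ = β * S / 2 + SA := by
        rw [Finset.sum_add_distrib, Finset.sum_const, Finset.card_range, nsmul_eq_mul, ← hSA]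
        field_simp
    _ ≤ β * S := by linarith

end P365L.FIN
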