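import Vale.Agent.P365.MathlibUsed

/-!
# P365, block L4: pigeonhole over scales (abstract form) and closing of the integral inequalities

Time `σ` is measured in units of `log 4`: the absorption is `ε = 4^{-σ}`; scale `i` has length
`2^i`; at time `σ` the scale with offset `o` is `⌊σ⌋₊ + o`.
-/

namespace P365L.L4

open MeasureTheory
open scoped ENNReal NNReal

/-- closing the three integral inequalities: `M, J, L` integrable in time -/
theorem close_ode {C c : ℝ} (hC : 0 ≤ C) (hc : 0 < c) {E0 ES MS JS iM iJ iL : ℝ}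
    (hES : 0 ≤ ES) (h1 : ES + iM ≤ E0) (hM : MS ≤ 2 * ES) (hJ : JS ≤ ES)
    (h0M : 0 ≤ iM)
    (h3 : iJ - 5 * iM ≤ MS) (h4 : c * iL - C * (iJ + iM) ≤ JS) :
    iM + iJ + iL ≤ (8 + (1 + 8 * C) / c) * E0 := by
  have a1 : iM ≤ E0 := by linarith
  have a2 : ES ≤ E0 := by linarith
  have a3 : iJ ≤ 7 * E0 := by linarith
  have hE0 : 0 ≤ E0 := le_trans hES a2
  have a4 : c * iL ≤ (1 + 8 * C) * E0 := by
    have : C * (iJ + iM) ≤ C * (8 * E0) := mul_le_mul_of_nonneg_left (by linarith) hC
    linarith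
  have a5 : iL ≤ (1 + 8 * C) / c * E0 := by
    rw [div_mul_eq_mul_div, le_div_iff₀ hc]
    linarith
  linarith

/-- the offsets of the windows -/
noncomputable def win (Lf : ℕ → ℕ) (g0 o1 : ℕ) : ℕ → ℕ
  | 0 => o1
  | q + 1 => win Lf g0 o1 q + Lf (win Lf g0 o1 q) + g0 + 2

theorem win_mono (Lf : ℕ → ℕ) (g0 o1 : ℕ) : Monotone (win Lf g0 o1) :=
  monotone_nat_of_le_succ fun q => by
    show win Lf g0 o1 q ≤ win Lf g0 o1 q + Lf (win Lf g0 o1 q) + g0 + 2
    omega

/-- **FIN**, abstract form. -/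
theorem fin_abstract {Dmax d0 θ0 β C : ℝ} (g0 o1 : ℕ) (cK : ℕ → ℝ) (hd0 : 0 < d0)
    (hθ : 0 < θ0) (hβ : 0 < β) (hC : 0 ≤ C) (hcK : ∀ o, 0 < cK o) :
    ∃ S0 O : ℕ, ∀ S : ℕ, S0 ≤ S → ∀ n : ℕ, S + O ≤ n → ∀ D P : ℕ → ℝ → ℝ,
      (∀ σ ∈ Set.Ico (0 : ℝ) S, ∀ i j, i ≤ j → j ≤ n → D i σ ≤ D j σ) →
      (∀ σ ∈ Set.Ico (0 : ℝ) S, ∀ i, i ≤ n → D i σ ≤ Dmax) →
      (∀ i, i ≤ n → AEMeasurable (P i) (volume.restrict (Set.Ico (0 : ℝ) S))) →
      (∀ i, i ≤ n → ∫⁻ σ in Set.Ico (0 : ℝ) S, ENNReal.ofReal (P i σ) ≤ ENNReal.ofReal C) →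
      (∀ σ ∈ Set.Ico (0 : ℝ) S, ∀ o i j : ℕ, ⌊σ⌋₊ + o + 3 ≤ i → i + g0 ≤ j → j ≤ n →
        d0 ≤ D (⌊σ⌋₊ + o) σ → D j σ ≤ (1 + θ0) * D (⌊σ⌋₊ + o) σ → cK o ≤ P i σ) →
      volume {σ : ℝ | σ ∈ Set.Ico (0 : ℝ) S ∧ d0 ≤ D (⌊σ⌋₊ + o1) σ} ≤
        ENNReal.ofReal (β * S) := by
  classical
  -- number of windows
  obtain ⟨m, hm⟩ := pow_unbounded_of_one_lt (Dmax / d0) (by linarith : (1 : ℝ) < 1 + θ0)
  have hm' : Dmax < (1 + θ0) ^ m * d0 := by rwa [div_lt_iff₀ hd0] at hm
  -- block lengths
  set Lf : ℕ → ℕ := fun o => max 1 ⌈2 * m * C / (cK o * β)⌉₊ with hLf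
  have hL1 : ∀ o, 1 ≤ Lf o := fun o => le_max_left _ _
  set w := win Lf g0 o1 with hw
  have hw0 : w 0 = o1 := rfl
  have hws : ∀ q, w (q + 1) = w q + Lf (w q) + g0 + 2 := fun q => rfl
  have hwm : Monotone w := win_mono _ _ _
  set K : ℝ := ∑ q ∈ Finset.range m, C / cK (w q) with hK
  have hK0 : 0 ≤ K := Finset.sum_nonneg fun q _ => div_nonneg hC (hcK _).le
  obtain ⟨S0, hS0⟩ := exists_nat_ge (2 * K / β)
  refine ⟨S0, w m, fun S hS n hn D P hmono hmax hPm hPi hkey => ?_⟩
  -- covering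
  set I : Set ℝ := Set.Ico (0 : ℝ) S with hI
  set tgt : ℕ → ℕ → ℕ := fun q a => (a + 1) * Lf (w q) + 2 + w q with htgt
  have hcover : {σ : ℝ | σ ∈ I ∧ d0 ≤ D (⌊σ⌋₊ + o1) σ} ⊆
      ⋃ q ∈ Finset.range m, ⋃ a ∈ Finset.range (S / Lf (w q) + 1),
        {σ : ℝ | ENNReal.ofReal (cK (w q)) ≤
          (Set.indicator I (fun σ => ENNReal.ofReal (P (tgt q a) σ)) σ)} := by
    rintro σ ⟨hσ, hbad⟩
    set N := ⌊σ⌋₊ with hN
    have hNS : N < S := by
      rw [hN, Nat.floor_lt hσ.1]
      exact hσ.2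
    have hqm : ∀ q, q ≤ m → N + w q ≤ n := fun q hq => by
      have := hwm hq
      omega
    -- a flat window
    have hflat : ∃ q < m, D (N + w (q + 1)) σ ≤ (1 + θ0) * D (N + w q) σ := by
      by_contra hcon
      push Not at hcon
      have hind : ∀ q, q ≤ m → (1 + θ0) ^ q * d0 ≤ D (N + w q) σ := by
        intro q
        induction q with
        | zero =>
          intro _
          rw [pow_zero, one_mul, hw0]
          exact hbad
        | succ q ih =>
          intro hq
          have h1 := ih (by omega)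
          have h2 := hcon q (by omega)
          calc (1 + θ0) ^ (q + 1) * d0 = (1 + θ0) * ((1 + θ0) ^ q * d0) := by ring
            _ ≤ (1 + θ0) * D (N + w q) σ := mul_le_mul_of_nonneg_left h1 (by linarith)
            _ ≤ D (N + w (q + 1)) σ := h2.le
      have h3 := hind m le_rfl
      have h4 := hmax σ hσ (N + w m) (hqm m le_rfl)
      linarith
    obtain ⟨q, hq, hfl⟩ := hflat
    have hdq : d0 ≤ D (N + w q) σ :=
      hbad.trans (hmono σ hσ _ _ (by rw [← hw0]; have := hwm (Nat.zero_le q); omega)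
        (hqm q hq.le))
    set L := Lf (w q) with hLq
    have hLpos : 0 < L := hL1 _
    have hdiv : L * (N / L) + N % L = N := Nat.div_add_mod N L
    have hmod : N % L < L := Nat.mod_lt N hLpos
    have e1 : (N / L + 1) * L = L * (N / L) + L := by ring
    have hk := hkey σ hσ (w q) (tgt q (N / L)) (N + w (q + 1))
      (by simp only [htgt]; rw [← hLq, e1, ← hN]; omega)
      (by simp only [htgt]; rw [← hLq, e1, hws q, ← hLq]; omega) (hqm (q + 1) hq) hdq hfl
    simp only [Set.mem_iUnion]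
    refine ⟨q, Finset.mem_range.2 hq, N / L, ?_, ?_⟩
    · rw [Finset.mem_range, Nat.lt_succ_iff]
      exact Nat.div_le_div_right hNS.le
    · show ENNReal.ofReal (cK (w q)) ≤ Set.indicator I _ σ
      rw [Set.indicator_of_mem hσ]
      exact ENNReal.ofReal_le_ofReal hk
  refine (measure_mono hcover).trans ?_
  have hone : ∀ q ∈ Finset.range m, ∀ a ∈ Finset.range (S / Lf (w q) + 1),
      volume {σ : ℝ | ENNReal.ofReal (cK (w q)) ≤
        (Set.indicator I (fun σ => ENNReal.ofReal (P (tgt q a) σ)) σ)} ≤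
      ENNReal.ofReal (C / cK (w q)) := by
    intro q hq a ha
    rw [Finset.mem_range] at hq ha
    have hle : tgt q a ≤ n := by
      have h1 : a * Lf (w q) ≤ S := by
        calc a * Lf (w q) ≤ (S / Lf (w q)) * Lf (w q) :=
              Nat.mul_le_mul_right _ (Nat.lt_succ_iff.1 ha)
          _ ≤ S := Nat.div_mul_le_self S _
      have h2 := hwm (show q + 1 ≤ m from hq)
      rw [hws q] at h2
      have e1 : (a + 1) * Lf (w q) = a * Lf (w q) + Lf (w q) := by ring
      simp only [htgt]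
      rw [e1]
      omega
    have hmeas : AEMeasurable (Set.indicator I (fun σ => ENNReal.ofReal (P (tgt q a) σ)))
        volume := by
      rw [aemeasurable_indicator_iff measurableSet_Ico]
      exact (hPm _ hle).ennreal_ofReal
    have hc0 : ENNReal.ofReal (cK (w q)) ≠ 0 := (ENNReal.ofReal_pos.2 (hcK _)).ne'
    have hMk := meas_ge_le_lintegral_div hmeas hc0 ENNReal.ofReal_ne_top
    refine hMk.trans ?_
    rw [lintegral_indicator measurableSet_Ico, ENNReal.ofReal_div_of_pos (hcK _)]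
    exact ENNReal.div_le_div_right (hPi _ hle) _
  calc volume (⋃ q ∈ Finset.range m, ⋃ a ∈ Finset.range (S / Lf (w q) + 1),
        {σ : ℝ | ENNReal.ofReal (cK (w q)) ≤
          (Set.indicator I (fun σ => ENNReal.ofReal (P (tgt q a) σ)) σ)})
      ≤ ∑ q ∈ Finset.range m, volume (⋃ a ∈ Finset.range (S / Lf (w q) + 1),
        {σ : ℝ | ENNReal.ofReal (cK (w q)) ≤
          (Set.indicator I (fun σ => ENNReal.ofReal (P (tgt q a) σ)) σ)}) :=
        measure_biUnion_finset_le _ _
    _ ≤ ∑ q ∈ Finset.range m, ∑ a ∈ Finset.range (S / Lf (w q) + 1),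
        ENNReal.ofReal (C / cK (w q)) := by
        refine Finset.sum_le_sum fun q hq => ?_
        refine (measure_biUnion_finset_le _ _).trans ?_
        exact Finset.sum_le_sum fun a ha => hone q hq a ha
    _ = ENNReal.ofReal (∑ q ∈ Finset.range m, ∑ a ∈ Finset.range (S / Lf (w q) + 1),
        C / cK (w q)) := by
        rw [ENNReal.ofReal_sum_of_nonneg]
        · refine Finset.sum_congr rfl fun q _ => ?_
          rw [ENNReal.ofReal_sum_of_nonneg]
          intro a _
          exact div_nonneg hC (hcK _).le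
        · intro q _
          exact Finset.sum_nonneg fun a _ => div_nonneg hC (hcK _).le
    _ ≤ ENNReal.ofReal (β * S) := by
        apply ENNReal.ofReal_le_ofReal
        have hstep : ∀ q ∈ Finset.range m,
            ∑ a ∈ Finset.range (S / Lf (w q) + 1), C / cK (w q) ≤
              S * (β / (2 * m)) + C / cK (w q) := by
          intro q hq
          have hm0 : 0 < m := lt_of_le_of_lt (Nat.zero_le q) (Finset.mem_range.1 hq)
          have hmR : (0 : ℝ) < m := by exact_mod_cast hm0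
          rw [Finset.sum_const, Finset.card_range, nsmul_eq_mul]
          push_cast
          have hcq := hcK (w q)
          have h1 : ((S / Lf (w q) : ℕ) : ℝ) ≤ (S : ℝ) / Lf (w q) := Nat.cast_div_le
          have h2 : 2 * m * C / (cK (w q) * β) ≤ Lf (w q) := by
            refine (Nat.le_ceil _).trans ?_
            exact Nat.cast_le.2 (le_max_right 1 ⌈2 * m * C / (cK (w q) * β)⌉₊)
          have hLR : (0 : ℝ) < Lf (w q) := by exact_mod_cast hL1 (w q)
          have h3 : (C / cK (w q)) / Lf (w q) ≤ β / (2 * m) := by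
            rw [div_le_iff₀ (by positivity)] at h2
            rw [div_div, div_le_div_iff₀ (by positivity) (by positivity)]
            nlinarith
          have h4 : (S : ℝ) / Lf (w q) * (C / cK (w q)) ≤ S * (β / (2 * m)) := by
            calc (S : ℝ) / Lf (w q) * (C / cK (w q)) = S * ((C / cK (w q)) / Lf (w q)) := by ring
              _ ≤ _ := mul_le_mul_of_nonneg_left h3 (Nat.cast_nonneg S)
          have h5 : 0 ≤ C / cK (w q) := div_nonneg hC hcq.le
          calc (((S / Lf (w q) : ℕ) : ℝ) + 1) * (C / cK (w q))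
              = ((S / Lf (w q) : ℕ) : ℝ) * (C / cK (w q)) + C / cK (w q) := by ring
            _ ≤ (S : ℝ) / Lf (w q) * (C / cK (w q)) + C / cK (w q) := by
                have := mul_le_mul_of_nonneg_right h1 h5
                linarith
            _ ≤ _ := by linarith
        refine (Finset.sum_le_sum hstep).trans ?_
        rw [Finset.sum_add_distrib, Finset.sum_const, Finset.card_range, nsmul_eq_mul, ← hK]
        have hSR : 2 * K / β ≤ S := hS0.trans (by exact_mod_cast hS)
        have h6 : K ≤ β * S / 2 := by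
          rw [div_le_iff₀ hβ] at hSR
          linarith
        have h7 : (m : ℝ) * (S * (β / (2 * m))) ≤ β * S / 2 := by
          rcases Nat.eq_zero_or_pos m with h | h
          · rw [h]
            simp only [Nat.cast_zero, zero_mul]
            positivity
          · have hmR : (0 : ℝ) < m := by exact_mod_cast h
            refine le_of_eq ?_
            field_simp
        linarith

end P365L.L4
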