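import Vale.Agent.P365.L4.Budget
import Vale.Agent.P365.Stat.StaticDef

/-!
# P365, block S: (S2) far mass and (S3) near mass, quenched, summed over the sites of the torus.
Deterministic statements about a nonnegative kernel `k` on the torus (`k x y = ε² E |G_xy|²`), then
the translation to `EEp`.
-/

set_option linter.all false

namespace P365L.FIN

open Finset P365L P365O

variable {N : ℕ} [NeZero N]

/-- number of centres `z` with `nrm (x - z) ≤ r` -/
theorem card_centres (x : Tor N) (r : ℕ) :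
    (univ.filter fun z : Tor N => nrm (x - z) ≤ r).card = (ball N r).card := by
  refine Finset.card_bij (fun z _ => x - z) ?_ ?_ ?_
  · intro z hz
    rw [mem_ball]
    simpa using hz
  · intro a _ b _ h
    exact sub_right_injective h
  · intro w hw
    rw [mem_ball] at hw
    exact ⟨x - w, by simpa using hw, by simp⟩

/-- **far mass**, kernel form -/
theorem far_kernel {k : Tor N → Tor N → ℝ} (hk : ∀ x y, 0 ≤ k x y) {C : ℝ} (hC : 0 ≤ C)
    (hA : ∀ f : Tor N → ℝ, ∑ x, ∑ y, k x y * (f x - f y) ^ 2 ≤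
      C * ∑ x, ∑ y, AT N x y * (f x - f y) ^ 2) {r : ℕ} (hr : 1 ≤ r) :
    ∑ x, ∑ y ∈ univ.filter (fun y => 3 * r < nrm (y - x)), k x y ≤
      C * 50 * (N : ℝ) ^ 2 / (r : ℝ) ^ 2 := by
  have hr0 : (0 : ℝ) < r := by exact_mod_cast hr
  -- the case of a small torus
  by_cases hN : 2 * r + 1 ≤ N
  swap
  · have h0 : ∑ x : Tor N, ∑ y ∈ univ.filter (fun y => 3 * r < nrm (y - x)), k x y = 0 := by
      refine Finset.sum_eq_zero fun x _ => ?_
      have : univ.filter (fun y : Tor N => 3 * r < nrm (y - x)) = ∅ := by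
        refine Finset.filter_eq_empty_iff.2 fun y _ => ?_
        have h1 := nrm_le_half (y - x)
        omega
      rw [this, Finset.sum_empty]
    rw [h0]
    positivity
  -- one centre
  have hone : ∀ z : Tor N, ∑ x ∈ univ.filter (fun x : Tor N => nrm (x - z) ≤ r),
      ∑ y ∈ univ.filter (fun y => 2 * r < nrm (y - z)), k x y ≤
      C * (8 * (2 * (r + r) + 1) ^ 2 / (r : ℝ) ^ 2) := by
    intro z
    set f : Tor N → ℝ := fun x => cut r r (x - z) with hf
    have h1 := hA f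
    have h2 : ∑ x, ∑ y, AT N x y * (f x - f y) ^ 2 ≤ 8 * (2 * (r + r) + 1) ^ 2 / (r : ℝ) ^ 2 := by
      have h3 := cut_energy_le (N := N) (l := r) (w := r) hr
      have h4 : ∑ x, ∑ y, AT N x y * (f x - f y) ^ 2 =
          ∑ x : Tor N, ∑ y, AT N x y * (cut r r x - cut r r y) ^ 2 := by
        rw [← Equiv.sum_comp (Equiv.addRight z)]
        refine Finset.sum_congr rfl fun x _ => ?_
        rw [← Equiv.sum_comp (Equiv.addRight z)]
        refine Finset.sum_congr rfl fun y _ => ?_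
        simp only [hf, Equiv.coe_addRight, add_sub_cancel_right, AT_translate]
      rw [h4]
      exact h3
    have h5 : ∑ x ∈ univ.filter (fun x : Tor N => nrm (x - z) ≤ r),
        ∑ y ∈ univ.filter (fun y => 2 * r < nrm (y - z)), k x y ≤
        ∑ x, ∑ y, k x y * (f x - f y) ^ 2 := by
      calc ∑ x ∈ univ.filter (fun x : Tor N => nrm (x - z) ≤ r),
          ∑ y ∈ univ.filter (fun y => 2 * r < nrm (y - z)), k x y
          = ∑ x ∈ univ.filter (fun x : Tor N => nrm (x - z) ≤ r),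
          ∑ y ∈ univ.filter (fun y => 2 * r < nrm (y - z)), k x y * (f x - f y) ^ 2 := by
            refine Finset.sum_congr rfl fun x hx => Finset.sum_congr rfl fun y hy => ?_
            have hx' : nrm (x - z) ≤ r := by simpa using hx
            have hy' : r + r ≤ nrm (y - z) := by
              have : 2 * r < nrm (y - z) := by simpa using hy
              omega
            rw [hf]
            simp only
            rw [cut_eq_one hx', cut_eq_zero hr hy']
            ring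
        _ ≤ ∑ x ∈ univ.filter (fun x : Tor N => nrm (x - z) ≤ r), ∑ y, k x y * (f x - f y) ^ 2 :=
            Finset.sum_le_sum fun x _ => Finset.sum_le_sum_of_subset_of_nonneg
              (Finset.subset_univ _) fun y _ _ => mul_nonneg (hk x y) (sq_nonneg _)
        _ ≤ _ := Finset.sum_le_sum_of_subset_of_nonneg
              (Finset.subset_univ _) fun x _ _ => Finset.sum_nonneg fun y _ =>
                mul_nonneg (hk x y) (sq_nonneg _)
    exact h5.trans (h1.trans (mul_le_mul_of_nonneg_left h2 hC))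
  -- sum over the centres
  have hsum : ∑ z : Tor N, ∑ x ∈ univ.filter (fun x : Tor N => nrm (x - z) ≤ r),
      ∑ y ∈ univ.filter (fun y => 2 * r < nrm (y - z)), k x y ≤
      (N : ℝ) ^ 2 * (C * (8 * (2 * (r + r) + 1) ^ 2 / (r : ℝ) ^ 2)) := by
    refine (Finset.sum_le_sum fun z _ => hone z).trans (le_of_eq ?_)
    rw [Finset.sum_const, Finset.card_univ, nsmul_eq_mul, card_Tor]
  have hlow : ((ball N r).card : ℝ) *
      ∑ x, ∑ y ∈ univ.filter (fun y => 3 * r < nrm (y - x)), k x y ≤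
      ∑ z : Tor N, ∑ x ∈ univ.filter (fun x : Tor N => nrm (x - z) ≤ r),
      ∑ y ∈ univ.filter (fun y => 2 * r < nrm (y - z)), k x y := by
    have h1 : ∀ z : Tor N, ∑ x ∈ univ.filter (fun x : Tor N => nrm (x - z) ≤ r),
        ∑ y ∈ univ.filter (fun y => 3 * r < nrm (y - x)), k x y ≤
        ∑ x ∈ univ.filter (fun x : Tor N => nrm (x - z) ≤ r),
        ∑ y ∈ univ.filter (fun y => 2 * r < nrm (y - z)), k x y := by
      intro z
      refine Finset.sum_le_sum fun x hx => ?_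
      have hx' : nrm (x - z) ≤ r := by simpa using hx
      refine Finset.sum_le_sum_of_subset_of_nonneg (fun y hy => ?_) fun y _ _ => hk x y
      have hy' : 3 * r < nrm (y - x) := by simpa using hy
      have h2 : nrm (y - x) ≤ nrm (y - z) + nrm (x - z) := by
        have h3 : y - x = (y - z) + (z - x) := by abel
        rw [h3]
        refine (nrm_add_le _ _).trans ?_
        rw [nrm_sub_comm z x]
      simp only [mem_filter, mem_univ, true_and]
      omega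
    refine le_trans (le_of_eq ?_) (Finset.sum_le_sum fun z _ => h1 z)
    rw [Finset.mul_sum]
    have h2 : ∀ z : Tor N, ∑ x ∈ univ.filter (fun x : Tor N => nrm (x - z) ≤ r),
        ∑ y ∈ univ.filter (fun y => 3 * r < nrm (y - x)), k x y =
        ∑ x, if nrm (x - z) ≤ r then
          ∑ y ∈ univ.filter (fun y => 3 * r < nrm (y - x)), k x y else 0 := fun z =>
      Finset.sum_filter _ _
    simp only [h2]
    rw [Finset.sum_comm]
    refine Finset.sum_congr rfl fun x _ => ?_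
    rw [← Finset.sum_filter, Finset.sum_const, nsmul_eq_mul, card_centres]
  rw [card_ball hN] at hlow
  push_cast at hlow
  set T := ∑ x : Tor N, ∑ y ∈ univ.filter (fun y => 3 * r < nrm (y - x)), k x y with hT
  have hT0 : 0 ≤ T := Finset.sum_nonneg fun x _ => Finset.sum_nonneg fun y _ => hk x y
  have h1 := hlow.trans hsum
  rw [le_div_iff₀ (by positivity)]
  have h2 : (2 * (r : ℝ) + 1) ^ 2 * (T * (r : ℝ) ^ 2) ≤
      (2 * (r : ℝ) + 1) ^ 2 * (C * 50 * (N : ℝ) ^ 2) := by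
    have h3 : (2 * (r : ℝ) + 1) ^ 2 * T * (r : ℝ) ^ 2 ≤
        (N : ℝ) ^ 2 * (C * (8 * (2 * (r + r) + 1) ^ 2 / (r : ℝ) ^ 2)) * (r : ℝ) ^ 2 :=
      mul_le_mul_of_nonneg_right h1 (by positivity)
    have h4 : (N : ℝ) ^ 2 * (C * (8 * (2 * (r + r) + 1) ^ 2 / (r : ℝ) ^ 2)) * (r : ℝ) ^ 2 =
        (C * (N : ℝ) ^ 2) * (8 * (2 * (r + r) + 1) ^ 2) := by
      field_simp
    rw [h4] at h3
    have h5 : 8 * (2 * ((r : ℝ) + r) + 1) ^ 2 ≤ 50 * (2 * (r : ℝ) + 1) ^ 2 := by nlinarith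
    have h6 : (C * (N : ℝ) ^ 2) * (8 * (2 * ((r : ℝ) + r) + 1) ^ 2) ≤
        (C * (N : ℝ) ^ 2) * (50 * (2 * (r : ℝ) + 1) ^ 2) :=
      mul_le_mul_of_nonneg_left h5 (by positivity)
    linarith
  exact le_of_mul_le_mul_left h2 (by positivity)

/-! ### translation to `EEp` -/

/-- `EEp` of the energy at homogeneous absorption -/
theorem EEp_En_hom {γ ε : ℝ} (h0 : 0 < ε) (U f : Tor N → ℝ) :
    EEp γ (fun _ => ε) U (fun W => En (AT N) W f) =
      ∑ x, ∑ y, (ε ^ 2 * EEp γ (fun _ => ε) U (fun W => KK (AT N) W x y)) * (f x - f y) ^ 2 := by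
  have hs := AT_symm N
  have h1 : EEp γ (fun _ => ε) U (fun W => En (AT N) W f) =
      EEp γ (fun _ => ε) U (fun W => ∑ x, ∑ y, (ε ^ 2 * (f x - f y) ^ 2) * KK (AT N) W x y) := by
    refine EEp_congr fun W hW => ?_
    unfold En
    refine Finset.sum_congr rfl fun x _ => Finset.sum_congr rfl fun y _ => ?_
    rw [hW, hW]
    ring
  rw [h1, EEp_sum (fun _ => h0) _ fun x _ => Adm_sum _ fun y _ => adm_cmul (Adm_KK hs x y) _]
  refine Finset.sum_congr rfl fun x _ => ?_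
  rw [EEp_sum (fun _ => h0) _ fun y _ => adm_cmul (Adm_KK hs x y) _]
  refine Finset.sum_congr rfl fun y _ => ?_
  rw [EEp_mul]
  ring

theorem EEp_KK_nonneg {γ ε : ℝ} (U : Tor N → ℝ) (x y : Tor N) :
    0 ≤ EEp γ (fun _ => ε) U (fun W => KK (AT N) W x y) :=
  EEp_nonneg fun W _ => KK_nonneg x y

theorem EEp_sum_KK {γ ε : ℝ} (h0 : 0 < ε) (U : Tor N → ℝ) (x : Tor N) (T : Finset (Tor N)) :
    EEp γ (fun _ => ε) U (fun W => ∑ y ∈ T, ε * KK (AT N) W x y) =
      ∑ y ∈ T, ε * EEp γ (fun _ => ε) U (fun W => KK (AT N) W x y) := by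
  rw [EEp_sum (fun _ => h0) _ fun y _ => adm_cmul (Adm_KK (AT_symm N) x y) _]
  refine Finset.sum_congr rfl fun y _ => ?_
  rw [EEp_mul]

/-- **(S2) far mass**, quenched -/
theorem far_mass {γ : ℝ} (hγ : 0 < γ) {ε : ℝ} (h0 : 0 < ε) (hε : ε ≤ γ) (U : Tor N → ℝ) {r : ℕ}
    (hr : 1 ≤ r) :
    ∑ x, EEp γ (fun _ => ε) U
      (fun W => ∑ y ∈ univ.filter (fun y => 3 * r < nrm (y - x)), ε * KK (AT N) W x y) ≤
      50 / γ ^ 2 * (N : ℝ) ^ 2 / (ε * (r : ℝ) ^ 2) := by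
  have hr0 : (0 : ℝ) < r := by exact_mod_cast hr
  have h1 := far_kernel (N := N)
    (k := fun x y => ε ^ 2 * EEp γ (fun _ => ε) U (fun W => KK (AT N) W x y))
    (fun x y => mul_nonneg (sq_nonneg _) (EEp_KK_nonneg U x y)) (C := 1 / γ ^ 2) (by positivity)
    (fun f => by
      have h2 := energy_le (AT_symm N) hγ U (e := fun _ => ε) (fun _ => h0) (fun _ => hε) f
      rw [EEp_En_hom h0 U f] at h2
      simp only [AT_sq] at h2
      exact h2) hr
  simp only [EEp_sum_KK h0 U]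
  have h2 : ε * ∑ x, ∑ y ∈ univ.filter (fun y : Tor N => 3 * r < nrm (y - x)),
      ε * EEp γ (fun _ => ε) U (fun W => KK (AT N) W x y) =
      ∑ x, ∑ y ∈ univ.filter (fun y : Tor N => 3 * r < nrm (y - x)),
      ε ^ 2 * EEp γ (fun _ => ε) U (fun W => KK (AT N) W x y) := by
    rw [Finset.mul_sum]
    refine Finset.sum_congr rfl fun x _ => ?_
    rw [Finset.mul_sum]
    exact Finset.sum_congr rfl fun y _ => by ring
  rw [← h2] at h1
  rw [le_div_iff₀ (by positivity)]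
  have h3 : 1 / γ ^ 2 * 50 * (N : ℝ) ^ 2 / (r : ℝ) ^ 2 * (r : ℝ) ^ 2 =
      50 / γ ^ 2 * (N : ℝ) ^ 2 := by
    field_simp
  rw [← h3]
  have h4 := mul_le_mul_of_nonneg_right h1 (sq_nonneg (r : ℝ))
  linarith

/-- **(S3) near mass**, quenched, from the static theorem -/
theorem near_mass (hstat : StaticThm) {γ : ℝ} (hγ : 0 < γ) {B : ℝ} (hB : 0 ≤ B) {R : ℝ}
    (hR : 0 < R) {θ : ℝ} (hθ : 0 < θ) :
    ∃ η : ℝ, 0 < η ∧ ∀ (N : ℕ) [NeZero N], 3 ≤ N → ∀ ε : ℝ, 0 < ε → ε ≤ γ / 2 →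
      ∀ U : Tor N → ℝ, (∀ x, |U x| ≤ B) →
      ε * ∑ i, ∑ z, EEp γ (fun _ => ε) U
        (fun W => mm (AT N) W z * muf (AT N) W (phi N i) z ^ 2) ≤ η * (N : ℝ) ^ 2 →
      ∑ x, ∑ y ∈ univ.filter (fun y => (nrm (x - y) : ℝ) ≤ R / Real.sqrt ε),
        ε ^ 2 * EEp γ (fun _ => ε) U (fun W => KK (AT N) W x y) * (nrm (x - y) : ℝ) ^ 2 ≤
        θ * (N : ℝ) ^ 2 := by
  have hpi := Real.pi_pos
  obtain ⟨η, hη, h⟩ := hstat γ hγ B hB R hR (θ / 10) (by positivity)
  refine ⟨η, hη, fun N _ hN ε h0 hε U hU hl => ?_⟩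
  have hnn : ∀ i : Fin 4, 0 ≤ ∑ z, EEp γ (fun _ => ε) U
        (fun W => mm (AT N) W z * muf (AT N) W (phi N i) z ^ 2) := fun i =>
    Finset.sum_nonneg fun z _ => EEp_nonneg fun W hW =>
      M2z_nonneg (AT_symm N) (fun x => by rw [hW]; linarith) (phi N i) z
  have h1 : ∀ i : Fin 4, ∑ x, ∑ y ∈ univ.filter (fun y => (nrm (x - y) : ℝ) ≤ R / Real.sqrt ε),
        ε ^ 2 * EEp γ (fun _ => ε) U (fun W => KK (AT N) W x y) *
          (phi N i x - phi N i y) ^ 2 ≤ θ / 10 * (N : ℝ) ^ 2 := by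
    intro i
    refine h N hN ε h0 hε U hU (phi N i) (phi_lip i) (le_trans ?_ hl)
    refine mul_le_mul_of_nonneg_left ?_ h0.le
    exact Finset.single_le_sum (f := fun i => ∑ z, EEp γ (fun _ => ε) U
        (fun W => mm (AT N) W z * muf (AT N) W (phi N i) z ^ 2)) (fun i _ => hnn i)
      (Finset.mem_univ i)
  have h2 : ∑ x, ∑ y ∈ univ.filter (fun y => (nrm (x - y) : ℝ) ≤ R / Real.sqrt ε),
        ε ^ 2 * EEp γ (fun _ => ε) U (fun W => KK (AT N) W x y) * dsq x y ≤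
        4 * (θ / 10 * (N : ℝ) ^ 2) := by
    have h3 : ∑ x, ∑ y ∈ univ.filter (fun y => (nrm (x - y) : ℝ) ≤ R / Real.sqrt ε),
        ε ^ 2 * EEp γ (fun _ => ε) U (fun W => KK (AT N) W x y) * dsq x y =
        ∑ i : Fin 4, ∑ x, ∑ y ∈ univ.filter (fun y => (nrm (x - y) : ℝ) ≤ R / Real.sqrt ε),
        ε ^ 2 * EEp γ (fun _ => ε) U (fun W => KK (AT N) W x y) *
          (phi N i x - phi N i y) ^ 2 := by
      rw [Finset.sum_comm]
      refine Finset.sum_congr rfl fun x _ => ?_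
      rw [Finset.sum_comm]
      refine Finset.sum_congr rfl fun y _ => ?_
      rw [dsq, Finset.mul_sum]
    rw [h3]
    refine (Finset.sum_le_sum fun i _ => h1 i).trans (le_of_eq ?_)
    rw [Finset.sum_const, Finset.card_univ, Fintype.card_fin, nsmul_eq_mul]
    push_cast
    ring
  have hpi2 : Real.pi ^ 2 ≤ 10 := by nlinarith [Real.pi_lt_d2, Real.pi_gt_three]
  have h4 : ∀ x y : Tor N, (nrm (x - y) : ℝ) ^ 2 ≤ 10 / 4 * dsq x y := by
    intro x y
    have h5 := dsq_ge x y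
    have h6 : (nrm (x - y) : ℝ) ^ 2 ≤ Real.pi ^ 2 / 4 * dsq x y := by
      calc (nrm (x - y) : ℝ) ^ 2 = Real.pi ^ 2 / 4 * (4 / Real.pi ^ 2 * (nrm (x - y) : ℝ) ^ 2) := by
            field_simp
        _ ≤ _ := mul_le_mul_of_nonneg_left h5 (by positivity)
    have h7 : Real.pi ^ 2 / 4 * dsq x y ≤ 10 / 4 * dsq x y :=
      mul_le_mul_of_nonneg_right (by linarith) (dsq_nonneg x y)
    linarith
  calc ∑ x, ∑ y ∈ univ.filter (fun y => (nrm (x - y) : ℝ) ≤ R / Real.sqrt ε),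
        ε ^ 2 * EEp γ (fun _ => ε) U (fun W => KK (AT N) W x y) * (nrm (x - y) : ℝ) ^ 2
      ≤ ∑ x, ∑ y ∈ univ.filter (fun y => (nrm (x - y) : ℝ) ≤ R / Real.sqrt ε),
        ε ^ 2 * EEp γ (fun _ => ε) U (fun W => KK (AT N) W x y) * (10 / 4 * dsq x y) :=
        Finset.sum_le_sum fun x _ => Finset.sum_le_sum fun y _ =>
          mul_le_mul_of_nonneg_left (h4 x y) (mul_nonneg (sq_nonneg _) (EEp_KK_nonneg U x y))
    _ = 10 / 4 * ∑ x, ∑ y ∈ univ.filter (fun y => (nrm (x - y) : ℝ) ≤ R / Real.sqrt ε),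
        ε ^ 2 * EEp γ (fun _ => ε) U (fun W => KK (AT N) W x y) * dsq x y := by
        rw [Finset.mul_sum]
        refine Finset.sum_congr rfl fun x _ => ?_
        rw [Finset.mul_sum]
        exact Finset.sum_congr rfl fun y _ => by ring
    _ ≤ 10 / 4 * (4 * (θ / 10 * (N : ℝ) ^ 2)) := mul_le_mul_of_nonneg_left h2 (by norm_num)
    _ = θ * (N : ℝ) ^ 2 := by ring

/-- **good times**: small loss rate implies that little mass is farther than `δ₀/√ε`. -/
theorem good_mass (hstat : StaticThm) {γ : ℝ} (hγ : 0 < γ) {B : ℝ} (hB : 0 ≤ B) {δ₀ : ℝ}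
    (hδ₀ : 0 < δ₀) {δ : ℝ} (hδ : 0 < δ) :
    ∃ η : ℝ, 0 < η ∧ ∀ (N : ℕ) [NeZero N], 3 ≤ N → ∀ ε : ℝ, 0 < ε → ε ≤ γ / 2 →
      ∀ U : Tor N → ℝ, (∀ x, |U x| ≤ B) →
      ε * ∑ i, ∑ z, EEp γ (fun _ => ε) U
        (fun W => mm (AT N) W z * muf (AT N) W (phi N i) z ^ 2) ≤ η * (N : ℝ) ^ 2 →
      ∑ x, EEp γ (fun _ => ε) U
        (fun W => ∑ y ∈ univ.filter (fun y => δ₀ / Real.sqrt ε < (nrm (x - y) : ℝ)),
          ε * KK (AT N) W x y) ≤ δ * (N : ℝ) ^ 2 := by
  -- choice of R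
  set R : ℝ := 3 * Real.sqrt γ + Real.sqrt (3600 / (γ ^ 2 * δ)) with hRdef
  have hsγ : 0 < Real.sqrt γ := Real.sqrt_pos.2 hγ
  have hR1 : 3 * Real.sqrt γ ≤ R := by
    have := Real.sqrt_nonneg (3600 / (γ ^ 2 * δ))
    linarith
  have hR0 : 0 < R := by linarith
  have hR2 : 3600 / (γ ^ 2 * δ) ≤ R ^ 2 := by
    have h1 : Real.sqrt (3600 / (γ ^ 2 * δ)) ≤ R := by linarith
    have h2 := pow_le_pow_left₀ (Real.sqrt_nonneg _) h1 2
    rwa [Real.sq_sqrt (by positivity)] at h2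
  obtain ⟨η, hη, h⟩ := near_mass hstat hγ hB hR0 (θ := δ * δ₀ ^ 2 / 2) (by positivity)
  refine ⟨η, hη, fun N _ hN ε h0 hε U hU hl => ?_⟩
  have hnear := h N hN ε h0 hε U hU hl
  have hs0 : 0 < Real.sqrt ε := Real.sqrt_pos.2 h0
  have hsε : Real.sqrt ε ≤ Real.sqrt γ := Real.sqrt_le_sqrt (by linarith)
  -- radius of the far part
  set r : ℕ := ⌊R / (3 * Real.sqrt ε)⌋₊ with hr
  have hx1 : 1 ≤ R / (3 * Real.sqrt ε) := by
    rw [le_div_iff₀ (by positivity)]
    linarith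
  have hr1 : 1 ≤ r := Nat.le_floor (by simpa using hx1)
  have hrle : (r : ℝ) ≤ R / (3 * Real.sqrt ε) := Nat.floor_le (by positivity)
  have hrge : R / (6 * Real.sqrt ε) ≤ r := by
    have h1 : R / (3 * Real.sqrt ε) < r + 1 := Nat.lt_floor_add_one _
    have h2 : R / (6 * Real.sqrt ε) = R / (3 * Real.sqrt ε) / 2 := by
      field_simp
      ring
    have h3 : (1 : ℝ) ≤ r := by exact_mod_cast hr1
    rw [h2]
    linarith
  have hfar := far_mass hγ h0 (by linarith : ε ≤ γ) U hr1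
  have hfar2 : 50 / γ ^ 2 * (N : ℝ) ^ 2 / (ε * (r : ℝ) ^ 2) ≤ δ / 2 * (N : ℝ) ^ 2 := by
    have h1 : R ^ 2 / 36 ≤ ε * (r : ℝ) ^ 2 := by
      have h2 := pow_le_pow_left₀ (by positivity) hrge 2
      have h3 : (R / (6 * Real.sqrt ε)) ^ 2 = R ^ 2 / (36 * ε) := by
        rw [div_pow, mul_pow, Real.sq_sqrt h0.le]
        norm_num
      rw [h3] at h2
      calc R ^ 2 / 36 = ε * (R ^ 2 / (36 * ε)) := by field_simp
        _ ≤ _ := mul_le_mul_of_nonneg_left h2 h0.le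
    have h2 : 100 / (γ ^ 2 * δ) ≤ ε * (r : ℝ) ^ 2 := by
      refine le_trans ?_ h1
      have : 100 / (γ ^ 2 * δ) = 3600 / (γ ^ 2 * δ) / 36 := by ring
      rw [this]
      exact div_le_div_of_nonneg_right hR2 (by norm_num)
    have h3 : 0 < ε * (r : ℝ) ^ 2 := lt_of_lt_of_le (by positivity) h2
    rw [div_le_iff₀ h3]
    have h4 : 100 ≤ γ ^ 2 * δ * (ε * (r : ℝ) ^ 2) := by
      rw [div_le_iff₀ (by positivity)] at h2
      linarith
    have h5 : 50 / γ ^ 2 ≤ δ / 2 * (ε * (r : ℝ) ^ 2) := by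
      rw [div_le_iff₀ (by positivity)]
      nlinarith
    nlinarith [sq_nonneg (N : ℝ), mul_le_mul_of_nonneg_right h5 (sq_nonneg (N : ℝ))]
  -- split
  simp only [EEp_sum_KK h0 U] at hfar ⊢
  set k : Tor N → Tor N → ℝ := fun x y => EEp γ (fun _ => ε) U (fun W => KK (AT N) W x y) with hk
  have hk0 : ∀ x y, 0 ≤ k x y := fun x y => EEp_KK_nonneg U x y
  have hsplit : ∀ x : Tor N,
      ∑ y ∈ univ.filter (fun y => δ₀ / Real.sqrt ε < (nrm (x - y) : ℝ)), ε * k x y ≤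
      1 / δ₀ ^ 2 * ∑ y ∈ univ.filter (fun y => (nrm (x - y) : ℝ) ≤ R / Real.sqrt ε),
        ε ^ 2 * k x y * (nrm (x - y) : ℝ) ^ 2 +
      ∑ y ∈ univ.filter (fun y => 3 * r < nrm (y - x)), ε * k x y := by
    intro x
    rw [Finset.mul_sum, Finset.sum_filter, Finset.sum_filter, Finset.sum_filter,
      ← Finset.sum_add_distrib]
    refine Finset.sum_le_sum fun y _ => ?_
    have e1 : 0 ≤ 1 / δ₀ ^ 2 * (ε ^ 2 * k x y * (nrm (x - y) : ℝ) ^ 2) := by
      have := hk0 x y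
      positivity
    have e2 : 0 ≤ ε * k x y := mul_nonneg h0.le (hk0 x y)
    by_cases h1 : δ₀ / Real.sqrt ε < (nrm (x - y) : ℝ)
    · rw [if_pos h1]
      by_cases h2 : (nrm (x - y) : ℝ) ≤ R / Real.sqrt ε
      · rw [if_pos h2]
        have h3 : ε * k x y ≤ 1 / δ₀ ^ 2 * (ε ^ 2 * k x y * (nrm (x - y) : ℝ) ^ 2) := by
          have h4 := pow_le_pow_left₀ (by positivity) h1.le 2
          rw [div_pow, Real.sq_sqrt h0.le, div_le_iff₀ h0] at h4
          have h5 : 1 ≤ 1 / δ₀ ^ 2 * ((nrm (x - y) : ℝ) ^ 2 * ε) := by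
            rw [one_div, ← div_eq_inv_mul, le_div_iff₀ (by positivity)]
            linarith
          calc ε * k x y = ε * k x y * 1 := (mul_one _).symm
            _ ≤ ε * k x y * (1 / δ₀ ^ 2 * ((nrm (x - y) : ℝ) ^ 2 * ε)) :=
              mul_le_mul_of_nonneg_left h5 e2
            _ = _ := by ring
        split_ifs <;> linarith
      · rw [if_neg h2, if_pos, zero_add]
        have h3 : R / Real.sqrt ε < (nrm (y - x) : ℝ) := by
          rw [nrm_sub_comm y x]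
          exact not_le.1 h2
        have h4 : (3 : ℝ) * r ≤ R / Real.sqrt ε := by
          have : R / Real.sqrt ε = 3 * (R / (3 * Real.sqrt ε)) := by field_simp
          rw [this]
          linarith
        have h5 : ((3 * r : ℕ) : ℝ) < (nrm (y - x) : ℝ) := by push_cast; linarith
        exact_mod_cast h5
    · rw [if_neg h1]
      split_ifs <;> linarith
  calc ∑ x, ∑ y ∈ univ.filter (fun y => δ₀ / Real.sqrt ε < (nrm (x - y) : ℝ)), ε * k x y
      ≤ ∑ x, (1 / δ₀ ^ 2 * ∑ y ∈ univ.filter (fun y => (nrm (x - y) : ℝ) ≤ R / Real.sqrt ε),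
        ε ^ 2 * k x y * (nrm (x - y) : ℝ) ^ 2 +
      ∑ y ∈ univ.filter (fun y => 3 * r < nrm (y - x)), ε * k x y) :=
        Finset.sum_le_sum fun x _ => hsplit x
    _ = 1 / δ₀ ^ 2 * (∑ x, ∑ y ∈ univ.filter (fun y => (nrm (x - y) : ℝ) ≤ R / Real.sqrt ε),
        ε ^ 2 * k x y * (nrm (x - y) : ℝ) ^ 2) +
      ∑ x, ∑ y ∈ univ.filter (fun y => 3 * r < nrm (y - x)), ε * k x y := by
        rw [Finset.sum_add_distrib, Finset.mul_sum]
    _ ≤ 1 / δ₀ ^ 2 * (δ * δ₀ ^ 2 / 2 * (N : ℝ) ^ 2) + δ / 2 * (N : ℝ) ^ 2 :=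
        add_le_add (mul_le_mul_of_nonneg_left hnear (by positivity)) (hfar.trans hfar2)
    _ = δ * (N : ℝ) ^ 2 := by
        field_simp
        ring

theorem of_lS_le {γ b : ℝ} {U : Tor N → ℝ} {s η : ℝ} (h : lS N γ b U s ≤ η) :
    (b * Real.exp (-s)) * ∑ i, ∑ z, EEp γ (fun _ => b * Real.exp (-s)) U
      (fun W => mm (AT N) W z * muf (AT N) W (phi N i) z ^ 2) ≤ η * (N : ℝ) ^ 2 := by
  have hN : (0 : ℝ) < N := by exact_mod_cast NeZero.pos N
  unfold lS at h
  exact (div_le_iff₀ (by positivity)).1 h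

end P365L.FIN
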