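import Vale.Agent.P365.L4.Fin

/-!
# P365: single frequency version of the budget (no scales).
`d` = E|R|²/m form `D_k`, `m` = k⁻²E(k·Ic k), `j` = Jn/|B|, `q` = Lam/|B| as functions of the flow time.
-/

set_option linter.all false

namespace P365L.FIN

open Finset

/-- Budget of a single frequency, discrete time, errors `Cst·h²` per step. -/
theorem single_sum {Dmax C1 c1 : ℝ} (hC : 0 ≤ C1) (hc : 0 < c1)
    (d m j q : ℕ → ℝ) {h Cst : ℝ} {N : ℕ} (hh : 0 < h)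
    (hD0 : ∀ k, k ≤ N → 0 ≤ d k) (hD : ∀ k, k ≤ N → d k ≤ Dmax)
    (hm0 : ∀ k, k ≤ N → 0 ≤ m k) (hm : ∀ k, k ≤ N → m k ≤ 2 * d k)
    (hj0 : ∀ k, k ≤ N → 0 ≤ j k) (hj : ∀ k, k ≤ N → j k ≤ d k)
    (hsmall : (N : ℝ) * (Cst * h ^ 2) ≤ 1)
    (hstep : ∀ k, k < N →
      d (k + 1) ≤ d k - h * m k + Cst * h ^ 2 ∧
      m k + h * (-5 * m k + j k) - Cst * h ^ 2 ≤ m (k + 1) ∧
      j k + h * (-C1 * (j k + m k) + c1 * q k) - Cst * h ^ 2 ≤ j (k + 1)) :
    ∑ k ∈ range N, h * (m k + j k + q k) ≤ Ctot Dmax C1 c1 := by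
  have hM : ∑ k ∈ Ico 0 N, h * m k ≤ Dmax + 1 := by
    have h1 := sum_tel d (fun k => h * m k) (Cst * h ^ 2) (Nat.zero_le N)
      (fun k _ hk' => (hstep k hk').1)
    have h2 := hD 0 (Nat.zero_le _)
    have h3 := hD0 N le_rfl
    push_cast at h1
    linarith
  have hJ : ∑ k ∈ Ico 0 N, h * j k ≤ 7 * Dmax + 6 := by
    have h1 := sum_tel (fun k => - m k)
      (fun k => h * j k - 5 * (h * m k)) (Cst * h ^ 2) (Nat.zero_le N)
      (fun k _ hk' => by
        have := (hstep k hk').2.1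
        linarith)
    have h1' : ∑ k ∈ Ico 0 N, (h * j k - 5 * (h * m k)) =
        ∑ k ∈ Ico 0 N, h * j k - 5 * ∑ k ∈ Ico 0 N, h * m k := by
      rw [Finset.sum_sub_distrib, Finset.mul_sum (Ico 0 N) (fun k => h * m k) 5]
    rw [h1'] at h1
    have h2 := hm N le_rfl
    have h3 := hm0 0 (Nat.zero_le _)
    have h4 := hD N le_rfl
    push_cast at h1
    linarith
  have hL : ∑ k ∈ Ico 0 N, h * q k ≤ (Dmax + C1 * (8 * Dmax + 7) + 1) / c1 := by
    rw [le_div_iff₀ hc]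
    have h1 := sum_tel (fun k => - j k)
      (fun k => c1 * (h * q k) - C1 * (h * j k + h * m k)) (Cst * h ^ 2) (Nat.zero_le N)
      (fun k _ hk' => by
        have := (hstep k hk').2.2
        linarith)
    have h1' : ∑ k ∈ Ico 0 N, (c1 * (h * q k) - C1 * (h * j k + h * m k)) =
        c1 * ∑ k ∈ Ico 0 N, h * q k -
          C1 * (∑ k ∈ Ico 0 N, h * j k + ∑ k ∈ Ico 0 N, h * m k) := by
      rw [Finset.sum_sub_distrib, ← Finset.sum_add_distrib, Finset.mul_sum, Finset.mul_sum]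
    rw [h1'] at h1
    have h2 := hj N le_rfl
    have h3 := hj0 0 (Nat.zero_le _)
    have h4 := hD N le_rfl
    have h5 : C1 * (∑ k ∈ Ico 0 N, h * j k + ∑ k ∈ Ico 0 N, h * m k) ≤ C1 * (8 * Dmax + 7) :=
      mul_le_mul_of_nonneg_left (by linarith) hC
    push_cast at h1
    have h6 : ((N : ℝ) - 0) * (Cst * h ^ 2) ≤ 1 := by simpa using hsmall
    have h7 : (∑ k ∈ Ico 0 N, h * q k) * c1 = c1 * ∑ k ∈ Ico 0 N, h * q k := mul_comm _ _
    linarith
  have e0 : range N = Ico 0 N := by rw [Finset.range_eq_Ico]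
  have e1 : ∑ k ∈ range N, h * (m k + j k + q k) =
      ∑ k ∈ Ico 0 N, h * m k + ∑ k ∈ Ico 0 N, h * j k + ∑ k ∈ Ico 0 N, h * q k := by
    rw [e0, ← Finset.sum_add_distrib, ← Finset.sum_add_distrib]
    exact Finset.sum_congr rfl fun k _ => by ring
  rw [e1, Ctot]
  linarith

/-- Count version: the set of grid times where `m + j + q ≥ η` has measure `≤ Ctot/η`. -/
theorem single_card {Dmax C1 c1 : ℝ} (hC : 0 ≤ C1) (hc : 0 < c1)
    (d m j q : ℕ → ℝ) {h Cst : ℝ} {N : ℕ} (hh : 0 < h)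
    (hD0 : ∀ k, k ≤ N → 0 ≤ d k) (hD : ∀ k, k ≤ N → d k ≤ Dmax)
    (hm0 : ∀ k, k ≤ N → 0 ≤ m k) (hm : ∀ k, k ≤ N → m k ≤ 2 * d k)
    (hj0 : ∀ k, k ≤ N → 0 ≤ j k) (hj : ∀ k, k ≤ N → j k ≤ d k)
    (hq0 : ∀ k, k < N → 0 ≤ q k)
    (hsmall : (N : ℝ) * (Cst * h ^ 2) ≤ 1)
    (hstep : ∀ k, k < N →
      d (k + 1) ≤ d k - h * m k + Cst * h ^ 2 ∧
      m k + h * (-5 * m k + j k) - Cst * h ^ 2 ≤ m (k + 1) ∧
      j k + h * (-C1 * (j k + m k) + c1 * q k) - Cst * h ^ 2 ≤ j (k + 1))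
    {η : ℝ} (hη : 0 < η) (T : Finset ℕ) (hT : ∀ k ∈ T, k < N ∧ η ≤ m k + j k + q k) :
    h * T.card ≤ Ctot Dmax C1 c1 / η := by
  have h0 := single_sum hC hc d m j q hh hD0 hD hm0 hm hj0 hj hsmall hstep
  have hsub : T ⊆ range N := fun k hk => Finset.mem_range.2 (hT k hk).1
  have h1 : ∑ k ∈ T, h * (m k + j k + q k) ≤ ∑ k ∈ range N, h * (m k + j k + q k) :=
    Finset.sum_le_sum_of_subset_of_nonneg hsub fun k hk _ => by
      have hk' := Finset.mem_range.1 hk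
      have := hm0 k hk'.le
      have := hj0 k hk'.le
      have := hq0 k hk'
      positivity
  have h2 : (T.card : ℝ) * (h * η) ≤ ∑ k ∈ T, h * (m k + j k + q k) := by
    have := Finset.card_nsmul_le_sum T (fun k => h * (m k + j k + q k)) (h * η)
      fun k hk => mul_le_mul_of_nonneg_left (hT k hk).2 hh.le
    simpa [nsmul_eq_mul] using this
  rw [le_div_iff₀ hη]
  calc h * T.card * η = T.card * (h * η) := by ring
    _ ≤ _ := h2.trans (h1.trans h0)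

/-- Static route (only `D' ≤ -l`): the set of grid times where `m ≥ η` has measure `≤ (Dmax+1)/η`. -/
theorem single_card_static {Dmax : ℝ}
    (d m : ℕ → ℝ) {h Cst : ℝ} {N : ℕ} (hh : 0 < h)
    (hD0 : 0 ≤ d N) (hD : d 0 ≤ Dmax)
    (hm0 : ∀ k, k < N → 0 ≤ m k)
    (hsmall : (N : ℝ) * (Cst * h ^ 2) ≤ 1)
    (hstep : ∀ k, k < N → d (k + 1) ≤ d k - h * m k + Cst * h ^ 2)
    {η : ℝ} (hη : 0 < η) (T : Finset ℕ) (hT : ∀ k ∈ T, k < N ∧ η ≤ m k) :
    h * T.card ≤ (Dmax + 1) / η := by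
  have h1 := sum_tel d (fun k => h * m k) (Cst * h ^ 2) (Nat.zero_le N)
      (fun k _ hk' => hstep k hk')
  rw [← Finset.range_eq_Ico] at h1
  push_cast at h1
  have hsub : T ⊆ range N := fun k hk => Finset.mem_range.2 (hT k hk).1
  have h2 : ∑ k ∈ T, h * m k ≤ ∑ k ∈ range N, h * m k :=
    Finset.sum_le_sum_of_subset_of_nonneg hsub fun k hk _ => by
      have hk' := Finset.mem_range.1 hk
      have := hm0 k hk'
      positivity
  have h3 : (T.card : ℝ) * (h * η) ≤ ∑ k ∈ T, h * m k := by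
    have := Finset.card_nsmul_le_sum T (fun k => h * m k) (h * η)
      fun k hk => mul_le_mul_of_nonneg_left (hT k hk).2 hh.le
    simpa [nsmul_eq_mul] using this
  rw [le_div_iff₀ hη]
  calc h * T.card * η = T.card * (h * η) := by ring
    _ ≤ ∑ k ∈ range N, h * m k := h3.trans h2
    _ ≤ Dmax + 1 := by linarith

end P365L.FIN
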