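import Mathlib

/-!
# P365, glue (G1): from the finite-step slope inequality and the integrated energy decay to
`Phi(S) ≤ Phi(0) - (1-2δ) S + C`.  Pure real analysis.
-/

set_option linter.all false

namespace P365L.FIN

open MeasureTheory intervalIntegral Set

/-- averaging a finite-step inequality over its starting point -/
theorem slope_avg {Φ g : ℝ → ℝ} {S h c : ℝ} (hS : 0 ≤ S) (hh : 0 < h)
    (hΦ : AntitoneOn Φ (Icc 0 (S + h))) (hg : IntervalIntegrable g volume 0 S)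
    (hstep : ∀ s, 0 ≤ s → s ≤ S → Φ (s + h) ≤ Φ s - c * g s) :
    c * ∫ s in (0)..S, g s ≤ h * (Φ 0 - Φ (S + h)) := by
  have hint : ∀ a b : ℝ, 0 ≤ a → a ≤ b → b ≤ S + h → IntervalIntegrable Φ volume a b := by
    intro a b ha hab hb
    refine AntitoneOn.intervalIntegrable (hΦ.mono ?_)
    rw [uIcc_of_le hab]
    exact Icc_subset_Icc ha hb
  have hI0S := hint 0 S le_rfl hS (by linarith)
  have hIS := hint S (S + h) hS (by linarith) le_rfl
  have hI0h := hint 0 h le_rfl hh.le (by linarith)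
  have hIh := hint h (S + h) hh.le (by linarith) le_rfl
  have hshift : (∫ s in (0)..S, Φ (s + h)) = ∫ s in h..(S + h), Φ s := by
    rw [intervalIntegral.integral_comp_add_right Φ h, zero_add]
  have hIsh : IntervalIntegrable (fun s => Φ (s + h)) volume 0 S := by
    have := hIh.comp_add_right h
    simpa using this
  have h1 : (∫ s in (0)..S, c * g s) ≤ ∫ s in (0)..S, (Φ s - Φ (s + h)) := by
    refine intervalIntegral.integral_mono_on hS (hg.const_mul c) (hI0S.sub hIsh) ?_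
    intro s hs
    have := hstep s hs.1 hs.2
    linarith
  rw [intervalIntegral.integral_const_mul, intervalIntegral.integral_sub hI0S hIsh, hshift] at h1
  have h2 : (∫ s in (0)..S, Φ s) + (∫ s in S..(S + h), Φ s) =
      (∫ s in (0)..h, Φ s) + ∫ s in h..(S + h), Φ s := by
    rw [intervalIntegral.integral_add_adjacent_intervals hI0S hIS,
      intervalIntegral.integral_add_adjacent_intervals hI0h hIh]
  have h3 : (∫ s in (0)..h, Φ s) ≤ h * Φ 0 := by
    have : (∫ s in (0)..h, Φ s) ≤ ∫ s in (0)..h, Φ 0 := by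
      refine intervalIntegral.integral_mono_on hh.le hI0h (intervalIntegrable_const) ?_
      intro s hs
      exact hΦ ⟨le_rfl, by linarith⟩ ⟨hs.1, by linarith [hs.2]⟩ hs.1
    simpa using this
  have h4 : h * Φ (S + h) ≤ ∫ s in S..(S + h), Φ s := by
    have : (∫ s in S..(S + h), Φ (S + h)) ≤ ∫ s in S..(S + h), Φ s := by
      refine intervalIntegral.integral_mono_on (by linarith) (intervalIntegrable_const) hIS ?_
      intro s hs
      exact hΦ ⟨by linarith [hs.1], hs.2⟩ ⟨by linarith, le_rfl⟩ hs.2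
    simpa using this
  linarith

/-- Main glue: antitone `Φ` with exact finite step rate, rate `≥ 1-δ` where `l < η`. -/
theorem slope_good {Φ g l : ℝ → ℝ} {S h δ η Dmax : ℝ} (hS : 0 ≤ S) (hh : 0 < h)
    (hδ : 0 ≤ δ) (hη : 0 < η) (hD : 0 ≤ Dmax)
    (hΦ : AntitoneOn Φ (Icc 0 (S + h)))
    (hl0 : ∀ s, 0 ≤ s → s ≤ S → 0 ≤ l s) (hl : IntervalIntegrable l volume 0 S)
    (hlint : (∫ s in (0)..S, l s) ≤ Dmax)
    (hg1 : ∀ s, 0 ≤ s → s ≤ S → l s < η → 1 - δ ≤ g s)
    (hg2 : ∀ s, 0 ≤ s → s ≤ S → -δ ≤ g s)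
    (hstep : ∀ s, 0 ≤ s → s ≤ S → Φ (s + h) ≤ Φ s - (1 - Real.exp (-h)) * g s) :
    Φ (S + h) ≤ Φ 0 - ((1 - Real.exp (-h)) / h) * ((1 - δ) * S) + Dmax / η := by
  have hc0 : 0 ≤ 1 - Real.exp (-h) := by
    have := Real.exp_le_one_iff.2 (by linarith : -h ≤ 0)
    linarith
  have hc1 : 1 - Real.exp (-h) ≤ h := by
    have := Real.add_one_le_exp (-h)
    linarith
  -- continuous minorant of `g`
  have hmin : ∀ s, 0 ≤ s → s ≤ S → (1 - δ) - l s / η ≤ g s := by
    intro s h0 h1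
    by_cases hls : l s < η
    · have := hg1 s h0 h1 hls
      have h2 : 0 ≤ l s / η := div_nonneg (hl0 s h0 h1) hη.le
      linarith
    · have h2 : 1 ≤ l s / η := (one_le_div hη).2 (not_lt.1 hls)
      have := hg2 s h0 h1
      linarith
  have hmi : IntervalIntegrable (fun s => (1 - δ) - l s / η) volume 0 S :=
    intervalIntegrable_const.sub (hl.div_const η)
  have h1 := slope_avg (c := 1 - Real.exp (-h)) hS hh hΦ hmi fun s h0 h1 => by
    have h2 := hstep s h0 h1
    have h3 := mul_le_mul_of_nonneg_left (hmin s h0 h1) hc0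
    linarith
  have h2 : (∫ s in (0)..S, ((1 - δ) - l s / η)) = (1 - δ) * S - (∫ s in (0)..S, l s) / η := by
    rw [intervalIntegral.integral_sub intervalIntegrable_const (hl.div_const η),
      intervalIntegral.integral_div, intervalIntegral.integral_const, smul_eq_mul]
    ring
  rw [h2] at h1
  have h3 : (∫ s in (0)..S, l s) / η ≤ Dmax / η := div_le_div_of_nonneg_right hlint hη.le
  have h4 : (1 - Real.exp (-h)) * ((1 - δ) * S - Dmax / η) ≤ h * (Φ 0 - Φ (S + h)) :=
    le_trans (mul_le_mul_of_nonneg_left (by linarith) hc0) h1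
  have h5 : (1 - Real.exp (-h)) * (Dmax / η) ≤ h * (Dmax / η) :=
    mul_le_mul_of_nonneg_right hc1 (div_nonneg hD hη.le)
  have h6 : (1 - Real.exp (-h)) * ((1 - δ) * S) ≤ h * (Φ 0 - Φ (S + h) + Dmax / η) := by
    nlinarith [h4, h5]
  have h7 : (1 - Real.exp (-h)) / h * ((1 - δ) * S) ≤ Φ 0 - Φ (S + h) + Dmax / η := by
    rw [div_mul_eq_mul_div, div_le_iff₀ hh]
    linarith
  linarith

/-- Clean form on `[0, S]`. -/
theorem slope_final {Φ g l : ℝ → ℝ} {S δ η Dmax : ℝ} (hS : 0 ≤ S)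
    (hδ : 0 < δ) (hδ1 : δ ≤ 1) (hη : 0 < η) (hD : 0 ≤ Dmax)
    (hΦ : AntitoneOn Φ (Ici 0))
    (hl0 : ∀ s, 0 ≤ s → s ≤ S → 0 ≤ l s) (hl : IntervalIntegrable l volume 0 S)
    (hlint : (∫ s in (0)..S, l s) ≤ Dmax)
    (hg1 : ∀ s, 0 ≤ s → s ≤ S → l s < η → 1 - δ ≤ g s)
    (hg2 : ∀ s, 0 ≤ s → s ≤ S → -δ ≤ g s)
    (hstep : ∀ s h, 0 ≤ s → s ≤ S → 0 < h → h ≤ δ →
      Φ (s + h) ≤ Φ s - (1 - Real.exp (-h)) * g s) :
    Φ S ≤ Φ 0 - (1 - 2 * δ) * S + (δ + Dmax / η) := by
  have hDη : 0 ≤ Dmax / η := div_nonneg hD hη.le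
  by_cases hcase : S ≤ δ
  · have h1 : Φ S ≤ Φ 0 := hΦ (mem_Ici.2 le_rfl) (mem_Ici.2 hS) hS
    have h2 : (1 - 2 * δ) * S ≤ S := by nlinarith
    linarith
  · have hcase' : δ < S := not_le.1 hcase
    have hS' : 0 ≤ S - δ := by linarith
    have hle : S - δ ≤ S := by linarith
    have hsub : IntervalIntegrable l volume 0 (S - δ) := by
      refine hl.mono_set ?_
      rw [uIcc_of_le hS', uIcc_of_le hS]
      exact Icc_subset_Icc le_rfl hle
    have hsub2 : IntervalIntegrable l volume (S - δ) S := by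
      refine hl.mono_set ?_
      rw [uIcc_of_le hle, uIcc_of_le hS]
      exact Icc_subset_Icc hS' le_rfl
    have hint2 : (∫ s in (0)..(S - δ), l s) ≤ Dmax := by
      have h1 := intervalIntegral.integral_add_adjacent_intervals hsub hsub2
      have h2 : 0 ≤ ∫ s in (S - δ)..S, l s :=
        intervalIntegral.integral_nonneg hle fun s hs => hl0 s (hS'.trans hs.1) hs.2
      linarith
    have h1 := slope_good (Φ := Φ) (g := g) (l := l) (S := S - δ) (h := δ) (δ := δ) (η := η)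
      (Dmax := Dmax) hS' hδ hδ.le hη hD (hΦ.mono fun x hx => hx.1)
      (fun s h0 h1 => hl0 s h0 (h1.trans hle)) hsub hint2
      (fun s h0 h1 => hg1 s h0 (h1.trans hle)) (fun s h0 h1 => hg2 s h0 (h1.trans hle))
      (fun s h0 h1 => hstep s δ h0 (h1.trans hle) hδ le_rfl)
    rw [sub_add_cancel] at h1
    have hq : 1 - δ / 2 ≤ (1 - Real.exp (-δ)) / δ := by
      rw [le_div_iff₀ hδ]
      have h3 : Real.exp (-δ) ≤ 1 - δ + δ ^ 2 / 2 := by
        have h5 : Real.exp (-δ) * Real.exp δ = 1 := by rw [← Real.exp_add]; simp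
        have h6 : 1 + δ + δ ^ 2 / 2 ≤ Real.exp δ := by
          have := Real.quadratic_le_exp_of_nonneg hδ.le
          linarith
        have h7 : 0 < 1 - δ + δ ^ 2 / 2 := by nlinarith
        have h8 : 1 ≤ (1 - δ + δ ^ 2 / 2) * Real.exp δ := by
          have h9 : (1 - δ + δ ^ 2 / 2) * (1 + δ + δ ^ 2 / 2) ≤ (1 - δ + δ ^ 2 / 2) * Real.exp δ :=
            mul_le_mul_of_nonneg_left h6 h7.le
          nlinarith [pow_pos hδ 4]
        have h10 : 0 < Real.exp δ := Real.exp_pos _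
        by_contra hcon
        push Not at hcon
        have : (1 - δ + δ ^ 2 / 2) * Real.exp δ < Real.exp (-δ) * Real.exp δ :=
          mul_lt_mul_of_pos_right hcon h10
        linarith
      nlinarith
    have hS2 : 0 ≤ (1 - δ) * (S - δ) := mul_nonneg (by linarith) hS'
    have h3 : (1 - δ / 2) * ((1 - δ) * (S - δ)) ≤
        (1 - Real.exp (-δ)) / δ * ((1 - δ) * (S - δ)) := mul_le_mul_of_nonneg_right hq hS2
    have h4 : (1 - 2 * δ) * (S - δ) ≤ (1 - δ / 2) * ((1 - δ) * (S - δ)) := by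
      have : (1 - 2 * δ) ≤ (1 - δ / 2) * (1 - δ) := by nlinarith
      calc (1 - 2 * δ) * (S - δ) ≤ ((1 - δ / 2) * (1 - δ)) * (S - δ) :=
            mul_le_mul_of_nonneg_right this hS'
        _ = _ := by ring
    have h5 : (1 - 2 * δ) * (S - δ) = (1 - 2 * δ) * S - (1 - 2 * δ) * δ := by ring
    have h6 : (1 - 2 * δ) * δ ≤ δ := by nlinarith
    linarith

end P365L.FIN
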